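import Vale.Agent.P269.Pt.Same

/-!
# Curves with two components that separate two marked points
-/

set_option linter.unusedSectionVars false

namespace Vale.Agent.P269

open Set Function Topology Filter

variable {Λ R J ν κ : Type} [Fintype Λ] [Fintype R] [Fintype J] [Fintype ν] [Fintype κ]

/-- There are two components; `a` lies on the component of `e`, `b` on the component of `e'`. -/
def AM.Sep (a b e e' : Ch.Mk ν κ) (m : AM Λ R J ν κ) : Prop :=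
  m.p a ∈ m.cmp (m.p e) ∧ m.p b ∈ m.cmp (m.p e') ∧ m.p e' ∉ m.cmp (m.p e) ∧
    ∀ z, z ∈ m.cmp (m.p e) ∨ z ∈ m.cmp (m.p e')

theorem AM.Same.sep {a b e e' : Ch.Mk ν κ} {m m' : AM Λ R J ν κ} (h : m.Same m')
    (hs : AM.Sep a b e e' m) : AM.Sep a b e e' m' := by
  refine ⟨h.mem_cmp hs.1, h.mem_cmp hs.2.1, fun k => hs.2.2.1 (h.symm.mem_cmp k), fun z => ?_⟩
  obtain ⟨y, -, -, k⟩ := h.symm.exists_cmp z
  refine (hs.2.2.2 y).imp (fun c => ?_) fun c => ?_ <;>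
    exact LC.mem_of_cmp (LC.sat_cmp _) ((k _).2 (LC.cmp_eq c ▸ LC.mem_cmp _)) (LC.mem_cmp _)

theorem AM.Sep.symm {a b e e' : Ch.Mk ν κ} {m : AM Λ R J ν κ} (h : AM.Sep a b e e' m) :
    AM.Sep b a e' e m :=
  ⟨h.2.1, h.1, fun k => h.2.2.1 (LC.cmp_eq k ▸ LC.mem_cmp _), fun z => (h.2.2.2 z).symm⟩

theorem AM.Sep.not_swap {a b e e' : Ch.Mk ν κ} {m : AM Λ R J ν κ} (h : AM.Sep a b e e' m) :
    ¬AM.Sep a b e' e m := fun k =>
  h.2.2.1 ((LC.cmp_eq k.1).symm.trans (LC.cmp_eq h.1) ▸ LC.mem_cmp _)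

end Vale.Agent.P269
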