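import Vale.Agent.P287Q.Trr.Defs
import Vale.Agent.P287Q.Trr.Sep
import Vale.Agent.P287Q.G.Qrr.NdA
import Vale.Agent.P287Q.G.Glu.Std0
import Vale.Agent.P287Q.G.LG.Lab

/-!
# Separating nodes on the labelled space
-/

set_option linter.unusedSectionVars false

namespace Vale.Agent.P269

open Set Function Topology Filter Cv LC

variable {S Λ R J K ι ν κ : Type} [Fintype S] [Fintype Λ] [Fintype R] [Fintype J] [Fintype K]
  [Fintype ι] [DecidableEq ι] [Fintype ν] [Fintype κ]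

namespace Trr

theorem sat_pre {ν' κ' : Type} {c : AC ν κ} {c' : AC ν' κ'} {f : c.X → c'.X} (hf : Continuous f)
    (hN : ∀ x y, Jn c.N x y → Jn c'.N (f x) (f y)) {U : Set c'.X} (h : c'.Sat U) :
    c.Sat (f ⁻¹' U) := ⟨h.1.preimage hf, fun _ a _ b => h.2 _ a _ (hN _ _ b)⟩

theorem cmp_map {c c' : AC ν κ} {f : c.X → c'.X} (hf : Continuous f)
    (hN : ∀ x y, Jn c.N x y → Jn c'.N (f x) (f y)) {x y : c.X} (h : x ∈ c.cmp y) :
    f x ∈ c'.cmp (f y) := fun _ a => h _ ⟨sat_pre hf hN a.1, a.2⟩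

/-- separation only depends on the embedded curve -/
theorem sep_of_par {R' J' : Type} [Fintype R'] [Fintype J'] {M : ι → ℕ} {o : ι} {C : Set (V M)}
    {m : AM Λ R J ν κ} {m' : AM Λ R' J' ν κ} {B : ι → LB m.R} {B' : ι → LB m'.R} {π π'}
    (h : Par o C m.N B π) (h' : Par o C m'.N B' π') (hp : ∀ q, Base.Orb (π (m.p q)) (π' (m'.p q)))
    {a b e e' : Ch.Mk ν κ} (s : AM.Sep a b e e' m) : AM.Sep a b e e' m' := by
  obtain ⟨f, c, hf, hN, k, c0, -⟩ := h.exists_iso h'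
  have q : ∀ q, f (m.p q) = m'.p q := fun q => by
    obtain ⟨t, ht, d⟩ := hp q
    exact ((h'.inj (m'.p q) _ (c (m.p q) * t⁻¹) (by
      rw [k, d, mul_smul, Dict.inv_smul ht])).resolve_right (sm_iff.1 (m'.sm q) _)).symm
  have u : ∀ {x y}, x ∈ m.cmp y → f x ∈ m'.cmp (f y) := cmp_map hf.cont fun x y => (hN x y).1
  have v : ∀ {x y}, f x ∈ m'.cmp (f y) → x ∈ m.cmp y := fun {x y} d => by
    simpa using cmp_map (c := m'.toAC) (c' := m.toAC) (hf.symm f).cont (jn_symm hN · · |>.1) d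
  refine ⟨q a ▸ q e ▸ u s.1, q b ▸ q e' ▸ u s.2.1, fun d => s.2.2.1 (v (by rwa [q, q])),
    f.surjective.forall.2 fun z => ?_⟩
  rw [← q, ← q]
  exact (s.2.2.2 z).imp u u

/-- the combinatorial form -/
theorem sep_iff {m : AM Λ R J ν (κ ⊕ Unit)} (a b : Ch.Mk ν (κ ⊕ Unit)) :
    (m.glue.Conn ∧ ∃ U, m.Sat U ∧ m.p a ∈ U ∧ m.p b ∉ U) ↔
      AM.Sep a b (Ch.nq () false) (Ch.nq () true) m ∨
        AM.Sep a b (Ch.nq () true) (Ch.nq () false) m := by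
  have key : ∀ {e e'}, AM.Sep a b e e' m → ∃ U, m.Sat U ∧ m.p a ∈ U ∧ m.p b ∉ U := fun s =>
    ⟨_, sat_cmp _, s.1, fun d => s.2.2.1 ((cmp_eq s.2.1).symm.trans (cmp_eq d) ▸ mem_cmp _)⟩
  have con : (∀ z, z ∈ m.cmp (m.p (Ch.nq () false)) ∨ z ∈ m.cmp (m.p (Ch.nq () true))) →
      m.glue.Conn := fun s => ⟨⟨m.p a⟩, fun U c d => by
    obtain ⟨u, v⟩ := AC.sat_glue.1 ((sat_iff (c := m.toAC.glue)).2 ⟨c, d⟩)
    by_cases k : m.p (Ch.nq () false) ∈ U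
    · exact .inr (eq_univ_of_forall fun z => (s z).elim (cmp_subset u k ·)
        (cmp_subset u ((v ()).1 k) ·))
    · exact .inl (eq_empty_of_forall_notMem fun z => (s z).elim (cmp_subset (compl u) k ·)
        (cmp_subset (compl u) (mt (v ()).2 k) ·))⟩
  refine ⟨fun ⟨c, U, u, ha, hb⟩ => ?_, fun s => s.elim (fun s => ⟨con s.2.2.2, key s⟩)
    fun s => ⟨con fun z => (s.2.2.2 z).symm, key s⟩⟩
  have all : ∀ W, m.Sat W → (m.p (Ch.nq () false) ∈ W ↔ m.p (Ch.nq () true) ∈ W) →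
      W = ∅ ∨ W = univ := fun W w d =>
    have := (sat_iff (c := m.toAC.glue)).1 (AC.sat_glue.2 ⟨w, fun _ => d⟩)
    c.2 W this.1 this.2
  have cov : ∀ z, z ∈ m.cmp (m.p (Ch.nq () false)) ∨ z ∈ m.cmp (m.p (Ch.nq () true)) :=
    fun z => ((all (m.cmp (m.p (Ch.nq () false)) ∪ m.cmp (m.p (Ch.nq () true)))
      ⟨(sat_cmp _).1.union (sat_cmp _).1, fun x d y f =>
        d.imp ((sat_cmp _).2 x · y f) ((sat_cmp _).2 x · y f)⟩
      (iff_of_true (.inl (mem_cmp _)) (.inr (mem_cmp _)))).resolve_left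
        fun e => e.subset (.inl (mem_cmp _))).symm.subset (mem_univ z)
  have fin : ∀ {e e'}, (∀ z, z ∈ m.cmp (m.p e) ∨ z ∈ m.cmp (m.p e')) → m.p e ∈ U → m.p e' ∉ U →
      AM.Sep a b e e' m := fun s d f =>
    ⟨(s _).resolve_right (cmp_subset (compl u) f · ha), (s _).resolve_left
      fun k => hb (cmp_subset u d k), fun k => f (cmp_subset u d k), s⟩
  have ne : ¬(m.p (Ch.nq () false) ∈ U ↔ m.p (Ch.nq () true) ∈ U) := fun d =>
    (all U u d).elim (fun e => e.subset ha) fun e => hb (e.symm.subset trivial)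
  by_cases k : m.p (Ch.nq () false) ∈ U
  · exact .inl (fin cov k fun d => ne (iff_of_true k d))
  · exact .inr (fin (fun z => (cov z).symm) (by_contra fun d => ne (iff_of_false k d)) k)

end Trr

namespace Ch

open Trr NdA

variable {ch : Ch ι J} {n : Nm ι J} {W : Wt S Λ R J} {ℓ : R → ι → ℤ}

/-- **separating nodes** -/
theorem Gl.sp_iff {z : ch.WG n ν κ Unit Λ} (h : Gl z.1.2 z.2) {m : AM Λ R J ν (κ ⊕ Unit)}
    (hm : Rep ℓ ∅ (μG z) m) (a b : Mk ν κ) :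
    IsConnected (crv z.1.2) ∧ Trr.Sp ch.o (crv z.1.2) (ηN z).2 (z.1.2.p a) (z.1.2.p b) ↔
      AM.Sep (inc a) (inc b) (nq () false) (nq () true) m ∨
        AM.Sep (inc a) (inc b) (nq () true) (nq () false) m := by
  obtain ⟨B, π, u, s, r⟩ := hm.exists_data h.mem'
  have r₂ := h.repD r fun _ hj => hj.elim
  have nd : Base.Orb (apV z.2.2.1 (π (m.p (nq () false)))) (ηN z).2 :=
    ⟨_, r.ne _, (congrArg _ (r.mark _)).trans (apV_smul _ _ _)⟩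
  rw [← sep_iff, ← r₂.conn]
  refine and_congr_right fun _ => ⟨?_, fun ⟨U, hU, ha, hb⟩ => ⟨m.X, _, inferInstance, inferInstance,
    m.R, _, B, _, U, _, _, r₂.cr.par, hU.1, ha, hb, r₂.cr.mark a, r₂.cr.mark b, fun q hq d =>
      (AC.mem_glue.1 hq).elim (fun k => jn hU (.inl k)) fun ⟨_, k⟩ => (d (k ▸ nd)).elim⟩⟩
  rintro ⟨X, _, _, _, Q, N, A, π', U, x, y, par, hU, hx, hy, ox, oy, hN⟩
  obtain ⟨f, c, hf, jf, k, c0, -⟩ := r₂.cr.par.exists_iso par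
  obtain ⟨x, rfl⟩ := f.surjective x
  obtain ⟨y, rfl⟩ := f.surjective y
  have o : ∀ x, Base.Orb (apV z.2.2.1 (π x)) (π' (f x)) := fun x => ⟨_, c0 x, k x⟩
  have mk : ∀ {x q}, Base.Orb (π' (f x)) (z.1.2.p q) → x = m.p (inc q) := fun {x q} d =>
    let ⟨t, _, e⟩ := ((o x).trans d).symm
    r₂.cr.orb_mark.1 ⟨t, e⟩
  have no : ∀ {x y}, Jn m.N x y → ¬Base.Orb (π' (f x)) (ηN z).2 := fun {x y} j d => by
    obtain ⟨t, -, e⟩ := nd.trans ((o x).trans d).symm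
    rcases r₂.cr.par.inj _ x t e with e | e
    · exact sm_iff.1 (m.sm _) y (e ▸ j)
    · rcases AC.jn_glue.1 (Jn.symm e) with e | ⟨_, _, e, -⟩
      exacts [sm_iff.1 (m.sm _) x e.symm, sm_iff.1 (m.sm _) y (e ▸ j)]
  refine ⟨f ⁻¹' U, ⟨hU.preimage hf.cont, fun v hv w j => ?_⟩, mk ox ▸ hx, mk oy ▸ hy⟩
  exact ((jf v w).1 (AC.jn_glue.2 (.inl j))).elim (fun e => (hN _ e (no j)).1 hv)
    fun e => (hN _ e (no j.symm)).2 hv

/-- The labelled node separates `a` (on the side of the first branch) from `b`. -/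
def spL (ℓ : R → ι → ℤ) (a b : Mk ν κ) : Set (ch.WG n ν κ Unit Λ) :=
  {z | ∃ m : AM Λ R J ν (κ ⊕ Unit), Rep ℓ ∅ (μG z) m ∧
    AM.Sep (inc a) (inc b) (nq () false) (nq () true) m}

variable {a b : Mk ν κ} {z : ch.WG n ν κ Unit Λ} {m : AM Λ R J ν (κ ⊕ Unit)}
  {Y : Set (ch.WG n ν κ Unit Λ)}

theorem Rep.sep {A A' : Set J} {x : ch.WF ν κ Λ} {m m' : AM Λ R J ν κ} (h : Rep ℓ A x m)
    (h' : Rep ℓ A' x m') {e e' : Mk ν κ} (s : AM.Sep a b e e' m) : AM.Sep a b e e' m' :=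
  let ⟨_, _, _, c, _⟩ := h
  let ⟨_, _, _, c', _⟩ := h'
  sep_of_par c.par c'.par (fun q => (c.orb q).trans (c'.orb q).symm) s

theorem mem_spL_iff {A : Set J} (hm : Rep ℓ A (μG z) m) :
    z ∈ spL ℓ a b ↔ AM.Sep (inc a) (inc b) (nq () false) (nq () true) m :=
  ⟨fun ⟨_, c, d⟩ => c.sep hm d, fun d => ⟨m, hm.mono (empty_subset _), d⟩⟩

theorem baseF_swp {ε : Type} [Fintype ε] {z : ch.WG n ν κ ε Λ} {Z : Set (Λ → ℂ)}
    (h : μG z ∈ (ch.re n).baseF ν (κ ⊕ ε) Z) : μG (swp z) ∈ (ch.re n).baseF ν (κ ⊕ ε) Z := by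
  obtain ⟨h1, h2, h3⟩ := h
  refine ⟨h1, base_swl h2, ?_⟩
  rintro (q | q) γ₁ γ₂ ρ₁ ρ₂ b1 b2 e1 e2 l1 l2
  · exact h3 (.inl q) γ₁ γ₂ ρ₁ ρ₂ b1 b2 e1 e2 (lead_swl.1 l1) (lead_swl.1 l2)
  · rw [h3 (.inr q) γ₂ γ₁ ρ₂ ρ₁ b2 b1 e2 e1 (lead_swl.1 l2) (lead_swl.1 l1), ← mul_assoc,
      ← mul_pow, neg_one_mul, neg_neg, one_pow, one_mul]

theorem swp_mem_spL (hl : ch.Lat W ℓ) (hz : z.2.1 ∈ (ch.re n).base _) {A : Set J}
    (hm : Rep ℓ A (μG z) m) :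
    swp z ∈ spL ℓ a b ↔ AM.Sep (inc a) (inc b) (nq () true) (nq () false) m := by
  obtain ⟨m', r⟩ := hl.re.exists_rep (A := ∅)
    (baseF_swp ((hm.mem_baseF hz (Z := univ)).2 trivial)) fun _ hj => hj.elim
  rw [mem_spL_iff r]
  obtain ⟨-, B, π, c, -⟩ := hm
  obtain ⟨-, B', π', c', -⟩ := r
  have o : ∀ q, Base.Orb (π ((m.re ⟨swq, swq_inj⟩).p q)) (π' (m'.p q)) := fun q =>
    (c.orb (swq q)).trans (c'.orb q).symm
  have e : AM.Sep (inc a) (inc b) (nq () false) (nq () true) (m.re ⟨swq, swq_inj⟩) ↔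
      AM.Sep (inc a) (inc b) (nq () true) (nq () false) m := by
    conv_rhs => rw [← swq_inc a, ← swq_inc b]
    exact Iff.rfl
  rw [← e]
  exact ⟨sep_of_par (m' := m.re ⟨swq, swq_inj⟩) c'.par c.par fun q => (o q).symm,
    sep_of_par (m := m.re ⟨swq, swq_inj⟩) c.par c'.par o⟩

theorem spL_not_swp (hl : ch.Lat W ℓ) (hz : z.2.1 ∈ (ch.re n).base _) (h : z ∈ spL ℓ a b) :
    swp z ∉ spL ℓ a b :=
  let ⟨_, c, d⟩ := h
  fun k => d.not_swap ((swp_mem_spL hl hz c).1 k)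

/-- the node separates iff one of the two labels lies in `spL` -/
theorem Gl.sp_iff_spL (hl : ch.Lat W ℓ) (h : Gl z.1.2 z.2) {Z : Set (Λ → ℂ)}
    (hz : μG z ∈ (ch.re n).baseF ν (κ ⊕ Unit) Z) :
    IsConnected (crv z.1.2) ∧ Trr.Sp ch.o (crv z.1.2) (ηN z).2 (z.1.2.p a) (z.1.2.p b) ↔
      z ∈ spL ℓ a b ∨ Ch.swp z ∈ spL ℓ a b := by
  obtain ⟨m, r⟩ := hl.re.exists_rep (A := ∅) hz fun _ hj => hj.elim
  rw [h.sp_iff r, mem_spL_iff r, swp_mem_spL hl h.mem' r]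

theorem actG_mem_spL (hz : z.2.1 ∈ (ch.re n).base _) {s : ch.AG n ν κ Unit S} (hs : IsUnit s)
    (h : z ∈ spL ℓ a b) : actG W s z ∈ spL ℓ a b :=
  let ⟨m, c, d⟩ := h
  ⟨m.scl W (θG s).1, (μG_actG (Wg := W) (a := s) (z := z)).symm ▸ c.actF hz (isUnit_θG hs), d⟩

theorem actG_mem_spL_iff (hz : z.2.1 ∈ (ch.re n).base _) {A : Set J} (hm : Rep ℓ A (μG z) m)
    {s : ch.AG n ν κ Unit S} (hs : IsUnit s) : actG W s z ∈ spL ℓ a b ↔ z ∈ spL ℓ a b := by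
  rw [mem_spL_iff hm, mem_spL_iff (m := m.scl W (θG s).1) (A := A)
    ((μG_actG (Wg := W) (a := s) (z := z)).symm ▸ hm.actF hz (isUnit_θG hs))]
  exact Iff.rfl

theorem OL_baseF {F : Fam S Λ R J K} {O : Set (ch.WF ν κ Λ)} :
    ch.OL n F O ⊆ {z | μG z ∈ (ch.re n).baseF ν (κ ⊕ Unit) univ} :=
  fun _ h => ⟨trivial, h.1.1.2.1.1.2⟩

section top

variable (hl : ch.Lat W ℓ) (hc : (ch.re n).Cuts)
  (hY : Y ⊆ {z | μG z ∈ (ch.re n).baseF ν (κ ⊕ Unit) univ})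
include hl hc hY

theorem ev_spL (hz : z ∈ Y) : ∀ᶠ y in 𝓝 z, y ∈ Y → (y ∈ spL ℓ a b ↔ z ∈ spL ℓ a b) := by
  obtain ⟨m, r⟩ := hl.re.exists_rep (A := ∅) (hY hz) fun _ hj => hj.elim
  refine ((analyticAt_μG z).continuousAt.eventually
    (r.eventually_same (A' := ∅) hc (hY hz).2.1)).mono fun y k hy => ?_
  obtain ⟨m', r'⟩ := hl.re.exists_rep (A := ∅) (hY hy) fun _ hj => hj.elim
  rw [mem_spL_iff r, mem_spL_iff r']
  exact ⟨(k (hY hy).2.1 m' r').symm.sep, (k (hY hy).2.1 m' r').sep⟩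

theorem spL_opn : ∃ U, IsOpen U ∧ Y ∩ spL ℓ a b = Y ∩ U :=
  ⟨interior {y | y ∈ Y → y ∈ spL ℓ a b}, isOpen_interior, Set.ext fun _ => and_congr_right
    fun hz => ⟨fun d => mem_interior_iff_mem_nhds.2 ((ev_spL hl hc hY hz).mono
      fun _ k hy => (k hy).2 d), fun d => interior_subset d hz⟩⟩

theorem spL_opn' : ∃ U, IsOpen U ∧ Y \ spL ℓ a b = Y ∩ U :=
  ⟨interior {y | y ∈ Y → y ∉ spL ℓ a b}, isOpen_interior, Set.ext fun _ => and_congr_right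
    fun hz => ⟨fun d => mem_interior_iff_mem_nhds.2 ((ev_spL hl hc hY hz).mono
      fun _ k hy e => d ((k hy).1 e)), fun d => interior_subset d hz⟩⟩

theorem spL_clo : Clo (Y ∩ spL ℓ a b) Y :=
  let ⟨U, u, e⟩ := spL_opn' (a := a) (b := b) hl hc hY
  ⟨Uᶜ, u.isClosed_compl, Set.ext fun _ => and_congr_right fun hz =>
    ⟨fun d k => (e.symm.subset ⟨hz, k⟩).2 d, fun d => by_contra fun k => d (e.subset ⟨hz, k⟩).2⟩⟩

omit hc in
theorem ivt_spL (h : Ivt (actG W : ch.AG n ν κ Unit S → _) Y) :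
    Ivt (actG W : ch.AG n ν κ Unit S → _) (Y ∩ spL ℓ a b) := fun s hs z hz =>
  ⟨h s hs z hz.1, actG_mem_spL (hY hz.1).2.1 hs hz.2⟩

omit hc in
theorem ivt_spL' (h : Ivt (actG W : ch.AG n ν κ Unit S → _) Y) :
    Ivt (actG W : ch.AG n ν κ Unit S → _) (Y \ spL ℓ a b) := fun s hs z hz =>
  let ⟨_, r⟩ := hl.re.exists_rep (A := ∅) (hY hz.1) fun _ hj => hj.elim
  ⟨h s hs z hz.1, mt (actG_mem_spL_iff (hY hz.1).2.1 r hs).1 hz.2⟩

end top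

section conn

/-- The connected curves. -/
def cnn (ch : Ch ι J) (ν κ Λ : Type) [Fintype ν] [Fintype κ] : Set (ch.WF ν κ Λ) :=
  {x | IsConnected (crv x.2)}

variable {O : Set (ch.WF ν κ Λ)} {x : ch.WF ν κ Λ}

theorem ev_cnn (hc : ch.Cuts) (hx : x.2 ∈ ch.base _) :
    ∀ᶠ y in 𝓝 x, y.2 ∈ ch.base _ → (y ∈ ch.cnn ν κ Λ ↔ x ∈ ch.cnn ν κ Λ) := by
  obtain ⟨X, _, _, _, Q, N, A, π, u, p, ξ, r⟩ := exists_cr hx
  let m : AM Λ ι J ν κ := ⟨⟨X, Q, N, p, r.par.nd, r.inj, r.sm⟩, A, 0, 0⟩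
  refine (continuousAt_snd.eventually (Ch.eventually_same hc hx (c₀ := m.toAC) r.par r.mark)).mono
    fun y k hy => ?_
  obtain ⟨X', _, _, _, Q', N', A', π', u', p', ξ', r'⟩ := exists_cr hy
  let m' : AM Λ ι J ν κ := ⟨⟨X', Q', N', p', r'.par.nd, r'.inj, r'.sm⟩, A', 0, 0⟩
  have s : m.Same m' := k hy m'.toAC A' π' r'.par r'.mark
  exact r'.par.isConnected_iff.trans (Iff.trans ⟨s.symm.conn, s.conn⟩ r.par.isConnected_iff.symm)

theorem cnn_opn (hc : ch.Cuts) (hO : O ⊆ {x | x.2 ∈ ch.base _}) :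
    ∃ U, IsOpen U ∧ O ∩ ch.cnn ν κ Λ = O ∩ U :=
  ⟨interior {y | y ∈ O → y ∈ ch.cnn ν κ Λ}, isOpen_interior, Set.ext fun _ => and_congr_right
    fun hz => ⟨fun d => mem_interior_iff_mem_nhds.2 ((ev_cnn hc (hO hz)).mono
      fun _ k hy => (k (hO hy)).2 d), fun d => interior_subset d hz⟩⟩

theorem cnn_opn' (hc : ch.Cuts) (hO : O ⊆ {x | x.2 ∈ ch.base _}) :
    ∃ U, IsOpen U ∧ O \ ch.cnn ν κ Λ = O ∩ U :=
  ⟨interior {y | y ∈ O → y ∉ ch.cnn ν κ Λ}, isOpen_interior, Set.ext fun _ => and_congr_right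
    fun hz => ⟨fun d => mem_interior_iff_mem_nhds.2 ((ev_cnn hc (hO hz)).mono
      fun _ k hy e => d ((k (hO hy)).1 e)), fun d => interior_subset d hz⟩⟩

theorem cnn_clo (hc : ch.Cuts) (hO : O ⊆ {x | x.2 ∈ ch.base _}) : Clo (O ∩ ch.cnn ν κ Λ) O :=
  let ⟨U, u, e⟩ := cnn_opn' hc hO
  ⟨Uᶜ, u.isClosed_compl, Set.ext fun _ => and_congr_right fun hz =>
    ⟨fun d k => (e.symm.subset ⟨hz, k⟩).2 d, fun d => by_contra fun k => d (e.subset ⟨hz, k⟩).2⟩⟩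

theorem actF_mem_cnn (hx : x.2 ∈ ch.base _) {s : ch.AF ν κ S} (hs : IsUnit s) :
    actF W s x ∈ ch.cnn ν κ Λ ↔ x ∈ ch.cnn ν κ Λ := by
  obtain ⟨X, _, _, _, Q, N, A, π, u, p, ξ, r⟩ := exists_cr hx
  exact ((r.setX _).act (isUnit_dupF hs)).par.isConnected_iff.trans r.par.isConnected_iff.symm

theorem ivt_cnn (hO : O ⊆ {x | x.2 ∈ ch.base _}) (h : Ivt (actF W : ch.AF ν κ S → _) O) :
    Ivt (actF W : ch.AF ν κ S → _) (O ∩ ch.cnn ν κ Λ) := fun s hs x hx =>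
  ⟨h s hs x hx.1, (actF_mem_cnn (hO hx.1) hs).2 hx.2⟩

theorem ivt_cnn' (hO : O ⊆ {x | x.2 ∈ ch.base _}) (h : Ivt (actF W : ch.AF ν κ S → _) O) :
    Ivt (actF W : ch.AF ν κ S → _) (O \ ch.cnn ν κ Λ) := fun s hs x hx =>
  ⟨h s hs x hx.1, mt (actF_mem_cnn (hO hx.1) hs).1 hx.2⟩

end conn

end Ch

namespace Fam

open Ch

variable {F : Fam S Λ R J K} [DecidableEq R] {k D : ℕ} {g g' : ℤ} {d : R → ℤ}

theorem ivt_sep {a b e e' : Mk ν κ} : AM.Ivt F.toWt (AM.Sep a b e e') :=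
  fun _ _ h => h.same.sep

theorem mk_mem_conn {u : ν → J → ℕ} (hD : F.BigD k D) (x) :
    Quo.mk _ x ∈ (F.sel fun m => m.Conn : Set (F.Mod κ k D g d u)) ↔ x.1 ∈ cnn _ ν κ Λ :=
  let ⟨_, r⟩ := (chart_lat hD).exists_rep_sol x.2.1
  (mem_sel (fun _ _ h => h.same.conn) r).trans (r.conn x.2.1.1.2.1)

/-- **the selector on the normalised moduli space** -/
theorem GNc.mem_sep {Ψ : C(F.ML ν k D g g' d, F.Mod (Fin 0) k D g d (0 : ν → J → ℕ))}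
    {Φ : C(F.ML ν k D g g' d, F.Mod (Fin 0) k D g' d (0 : ν ⊕ Unit × Bool → J → ℕ))}
    (N : F.GNc Ψ Φ) (hF : F.Inv) (hk : F.Big k) (hD : F.BigD k D) (hg : g = g' + 1)
    (z : F.SL ν k D g g' d) (a b : ν) :
    Φ (Quo.mk _ z) ∈ (F.sel (AM.Sep (.inl (.inl a)) (.inl (.inl b)) (Nd.mq () false)
      (Nd.mq () true)) : Set (F.Mod (Fin 0) k D g' d (0 : ν ⊕ Unit × Bool → J → ℕ))) ↔
      z.1 ∈ spL ℓs (.inl a) (.inl b) := by
  have l : Ch.Lev F (F.TL ν k D g' d) := by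
    have e : F.posO ν (Fin 0 ⊕ Unit) k D g' d = F.posG ν (Fin 0 ⊕ Unit) k D g' d :=
      congrArg interior (Set.ext fun _ => imp_congr_right fun _ =>
        ⟨fun h => h ∅, fun h _ m r => h m (r.mono (empty_subset _))⟩)
    rw [TL, e]
    exact (Ch.lev_adm hF).interS ivt_posG (stb_posG _)
  have k := ZL.lf (gn hk hD (by rw [hg, Fintype.card_unit, Nat.cast_one])) l z.2
  obtain ⟨m, r⟩ := (chart_lat hD).re.exists_rep_sol k.2.2.1
  obtain ⟨x, e, r'⟩ := N.rep z m r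
  have r₀ : Rep ℓs ∅ (μG z.1) m := by
    have := (congrArg (fun y => Rep ℓs univ (μG y) m)
      (add_ι₂ (F := F) (z := z.1) (lfX F.mov z.1.1.2 z.1.2))).mp r
    exact this.setF z.1.2.1.X
  rw [e, mem_sel ivt_sep r', mem_spL_iff r₀]
  exact Iff.rfl

end Fam

end Vale.Agent.P269
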