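import Vale.Agent.P287Q.Trr.Sep
import Vale.Agent.P287Q.G.LG.Lab

/-!
# The relation `ψ_a + ψ_b = D(a | b)` in genus zero: the statement
-/

namespace Vale.Agent.P269

open Set Function Topology Filter Vale.Agent.P291Z Vale.Agent.P269.Ch

/-- **The topological recursion relation** on the level of classes. -/
def St.Trr : Prop :=
  ∀ {S Λ R J K ν : Type} [Fintype S] [Fintype Λ] [Fintype R] [Fintype J] [Fintype K] [Fintype ν]
    [DecidableEq R] (F : Fam S Λ R J K) (k D : ℕ) (d : R → ℤ) (a b : ν) Ψ Φ, F.Nice 0 → F.Abs →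
    F.Big k → F.BigD k D → a ≠ b →
    F.GNc (ν := ν) (k := k) (D := D) (g := 0) (g' := -1) (d := d) Ψ Φ →
    ∀ v, (F.kdL ν k D 0 (-1) d).IsV (F.acL ν k D 0 (-1) d) (F.SL ν k D 0 (-1) d)
      (F.OL ν k D 0 (-1) d) v →
      cap (hcls (ind (F.sel fun m => m.Conn)) * (hcls (psiF (.inl a)) + hcls (psiF (.inl b))))
        (F.vir (Fin 0) k D 0 d 0) =
      push Ψ (cap (H.map Φ (hcls (ind (F.sel (AM.Sep (.inl (.inl a)) (.inl (.inl b))
        (Nd.mq () false) (Nd.mq () true)))))) v)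

end Vale.Agent.P269
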