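import Vale.Agent.P287Q.Trr.Fib
import Vale.Agent.P269.Base.Cbc

/-!
# Functions with one simple pole in a family of rational curves
-/

set_option linter.unusedSectionVars false

namespace Vale.Agent.P269.Trr

open Set Function Topology Filter Vale.Agent.P269.Base Vale.Agent.P269.Cv Vale.Agent.P269.Holo

theorem deriv_of_sq {G A B : ℂ → ℂ} {g α β : ℂ} (hG : HasDerivAt G g 0) (hA : HasDerivAt A α 0)
    (hB : HasDerivAt B β 0) (a0 : A 0 = 0) (b0 : B 0 = 0)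
    (h : ∀ᶠ s in 𝓝 (0 : ℂ), G (s ^ 2) = A s * B s) : g = α * β := by
  have g0 : G 0 = 0 := by simpa [a0] using h.self_of_nhds
  rw [hasDerivAt_iff_tendsto_slope_zero] at hG hA hB
  have t : Tendsto (fun s : ℂ => s ^ 2) (𝓝[≠] 0) (𝓝[≠] 0) :=
    tendsto_nhdsWithin_iff.2 ⟨by
      simpa using ((continuous_pow 2).tendsto (0 : ℂ)).mono_left nhdsWithin_le_nhds,
      eventually_mem_nhdsWithin.mono fun s hs => pow_ne_zero 2 hs⟩
  refine tendsto_nhds_unique (hG.comp t) ((hA.mul hB).congr' ?_)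
  filter_upwards [mem_nhdsWithin_of_mem_nhds h] with s hs
  simp only [comp, zero_add, g0, a0, b0, sub_zero, smul_eq_mul, hs]
  ring

variable {ι : Type} [Fintype ι] {M : ι → ℕ} {o : ι} {m : ι → ℤ}
  {T P : Type*} [TopologicalSpace T] [NormedAddCommGroup P] [NormedSpace ℂ P]
  [FiniteDimensional ℂ P] {D : T → Set (V M)} {π : T → P} {t₀ : T}

theorem hasDerivAt_nd {F : P × ℂ × ℂ → ℂ} {p : P} (hF : AnalyticAt ℂ F (p, 0)) {ρ : ℂ → P}
    {x y : ℂ → ℂ} {μ : ℂ} (hρ : HasDerivAt ρ 0 0) (hx : HasDerivAt x μ 0) (hy : HasDerivAt y μ 0)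
    (h0 : (ρ 0, x 0, y 0) = (p, 0)) : HasDerivAt (fun s => F (ρ s, x s, y s))
      (μ * (deriv (fun t => F (p, t, 0)) 0 + deriv (fun t => F (p, 0, t)) 0)) 0 := by
  have a : AnalyticAt ℂ (fun z => F (p, z)) 0 :=
    hF.comp (f := fun z => (p, z)) (analyticAt_const.prod analyticAt_id)
  refine (hF.differentiableAt.hasFDerivAt.comp_hasDerivAt_of_eq 0 (hρ.prodMk (hx.prodMk hy))
    h0.symm).congr_deriv ?_
  rw [deriv_inl a, deriv_inr a, ← map_add, ← smul_eq_mul, ← map_smul, fderiv_inr hF]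
  simp

/-- The normalised family of functions with a simple pole along `σ` and a zero along `τ`. -/
theorem exists_nf (h : LocFam o D π t₀) {σ τ : P × ℂ → V M}
    (h0 : Chart o D π t₀ σ fun _ => univ) (h1 : Chart o D π t₀ τ fun _ => univ)
    (hz : Gz o m (D t₀) (σ (π t₀, 0)) (τ (π t₀, 0))) :
    ∃ (f : T → V M → ℂ) (Φ : P → ℂ), AnalyticAt ℂ Φ (π t₀) ∧
      (∀ c ∈ D t₀, Off ![σ (π t₀, 0), τ (π t₀, 0)] c → RegAt D π f t₀ c) ∧
      ∀ᶠ t in 𝓝 t₀, Pz o (D t) (σ (π t, 0)) (τ (π t, 0)) (f t) ∧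
        IsBranch o (D t) (fun z => σ (π t, z)) ∧ Vz (-1) (fun z => f t (σ (π t, z))) 1 ∧
        Vz 1 (fun z => f t (τ (π t, z))) (Φ (π t)) := by
  have hπ := h.cont.self_of_nhds
  have e : ∀ p, ctr ![σ, τ] p = ![σ (p, 0), τ (p, 0)] := fun p =>
    funext (Fin.forall_fin_two.2 ⟨rfl, rfl⟩)
  have hσ : Pts o D π t₀ ![σ, τ] := ⟨Fin.forall_fin_two.2 ⟨h0, h1⟩, (e _ ▸ hz.spt).inj⟩
  obtain ⟨f₀, b, v⟩ := hz.exists_bas (hσ.isBranch h 0) (.refl _)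
  obtain ⟨f, k, rfl⟩ := h.exists_ext hz.crv hσ (e _ ▸ b) (by simp [dgz]) (e _ ▸ b.mer ())
  obtain ⟨g, g1, g2⟩ := k.ord 0
  have g3 : g (π t₀, 0) ≠ 0 := (FMer.vz g1 g2).unique v ▸ one_ne_zero
  have g4 : AnalyticAt ℂ (fun p => (g (p, 0))⁻¹) (π t₀) :=
    (g1.comp (f := fun p => (p, (0 : ℂ))) (analyticAt_id.prod analyticAt_const)).inv g3
  have k' := k.smul (HolAt.of_an g4)
  obtain ⟨g', g5, g6⟩ := k'.ord 1
  refine ⟨_, fun p => g' (p, 0), g5.comp (f := fun p => (p, (0 : ℂ)))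
    (analyticAt_id.prod analyticAt_const), fun c a b => k'.regAt a (e _ ▸ b), ?_⟩
  filter_upwards [k'.eventually_mer h hσ, h.eventually, hσ.eventually h,
    (tendsto_inl t₀ (0 : ℂ)).eventually ((((tendsto_pm hπ 0).eventually
      (g1.eventually_analyticAt.and (g5.eventually_analyticAt.and
        (g1.continuousAt.eventually_ne g3)))).and (g2.and g6).eventually_nhds))]
    with t a1 a2 a3 ⟨⟨a4, a5, a6⟩, a7⟩
  exact ⟨by simpa only [e] using a1, a3.isBranch a2 0,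
    inv_mul_cancel₀ a6 ▸ (FMer.vz a4 (a7.mono fun _ k => k.1)).const_mul _,
    FMer.vz (f := fun t c => (g (π t, 0))⁻¹ * f t c) a5 (a7.mono fun _ k => k.2)⟩

/-- The derivative along a curve through the node of the total space. -/
theorem nd_deriv (h : LocFam o D π t₀) {σ : P × ℂ × ℂ → V M} {τ : P → ℂ}
    (hσ : Chart o D π t₀ σ fun p => {z | z.1 * z.2 = τ p}) {f : T → V M → ℂ}
    (hf : RegAt D π f t₀ (σ (π t₀, 0))) (h0 : τ (π t₀) = 0) {u : ℂ → T} {x y : ℂ → ℂ} {μ : ℂ}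
    (u0 : u 0 = t₀) (u1 : ContinuousAt u 0) (u2 : HasDerivAt (fun s => π (u s)) 0 0)
    (hx : HasDerivAt x μ 0) (hy : HasDerivAt y μ 0) (x0 : x 0 = 0) (y0 : y 0 = 0)
    (e : ∀ᶠ s in 𝓝 0, x s * y s = τ (π (u s))) :
    HasDerivAt (fun s => f (u s) (σ (π (u s), x s, y s)))
      (μ * (deriv (fun t => f t₀ (σ (π t₀, t, 0))) 0 +
        deriv (fun t => f t₀ (σ (π t₀, 0, t))) 0)) 0 := by
  have hπ := h.cont.self_of_nhds
  obtain ⟨Φ, a, b⟩ := hf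
  have k : ∀ᶠ q : T × ℂ × ℂ in 𝓝 (t₀, 0), q.2.1 * q.2.2 = τ (π q.1) →
      f q.1 (σ (π q.1, q.2)) = Φ (π q.1, σ (π q.1, q.2)) := by
    filter_upwards [(Tendsto.prodMk_nhds continuousAt_fst (hσ.tendsto hπ)).eventually b, hσ.mem]
      with q k1 k2 k3 using k1 (k2 k3)
  have k0 := (tendsto_inr t₀ (0 : ℂ × ℂ)).eventually k
  have k1 : (fun t => f t₀ (σ (π t₀, t, 0))) =ᶠ[𝓝 0] fun t => Φ (π t₀, σ (π t₀, t, 0)) :=
    ((tendsto_inl (0 : ℂ) (0 : ℂ)).eventually k0).mono fun t k => k (by simp [h0])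
  have k2 : (fun t => f t₀ (σ (π t₀, 0, t))) =ᶠ[𝓝 0] fun t => Φ (π t₀, σ (π t₀, 0, t)) :=
    ((tendsto_inr (0 : ℂ) (0 : ℂ)).eventually k0).mono fun t k => k (by simp [h0])
  rw [k1.deriv_eq, k2.deriv_eq]
  refine (hasDerivAt_nd (F := fun q => Φ (q.1, σ q)) (a.comp_of_eq (analyticAt_fst.prod hσ.an) rfl)
    u2 hx hy (by rw [u0, x0, y0]; rfl)).congr_of_eventuallyEq ?_
  have c : Tendsto (fun s => (u s, x s, y s)) (𝓝 0) (𝓝 (t₀, 0)) := by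
    simpa only [u0, x0, y0] using! (u1.prodMk (hx.continuousAt.prodMk hy.continuousAt)).tendsto
  filter_upwards [c.eventually k, e] with s k1 k2 using k1 k2

variable {a b : P → V M}

theorem exists_loc' (h : LocFam o D π t₀) (ha : AnalyticAt ℂ a (π t₀))
    (hb : AnalyticAt ℂ b (π t₀)) (hz : ∀ᶠ t in 𝓝 t₀, Gz o m (D t) (a (π t)) (b (π t))) :
    ∃ (v w : P → V M) (Φ : P → ℂ), AnalyticAt ℂ v (π t₀) ∧ AnalyticAt ℂ w (π t₀) ∧
      AnalyticAt ℂ Φ (π t₀) ∧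
      (∀ᶠ t in 𝓝 t₀, (∃ γ, IsBranch o (D t) γ ∧ γ 0 = a (π t) ∧ deriv γ 0 = v (π t)) ∧
        (∃ δ, IsBranch o (D t) δ ∧ δ 0 = b (π t) ∧ deriv δ 0 = w (π t)) ∧
        Pr o (D t) (a (π t)) (b (π t)) (v (π t)) (w (π t)) (Φ (π t))) ∧
      ∀ c τ, On o (D t₀) → NdAt o D π t₀ c τ → Sp o (D t₀) c (a (π t₀)) (b (π t₀)) →
        ∀ u : ℂ → T, u 0 = t₀ → ContinuousAt u 0 → AnalyticAt ℂ (fun r => π (u r)) 0 →
          deriv (fun r => τ (π (u r))) 0 ≠ 0 → deriv (fun r => Φ (π (u r))) 0 ≠ 0 := by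
  have hπ := h.cont.self_of_nhds
  have z0 := hz.self_of_nhds
  obtain ⟨σ, s1, s2⟩ := h.exists_pts (y := ![a, b]) (Fin.forall_fin_two.2
    ⟨⟨ha, hz.mono fun t k => k.spt.mem 0⟩, hb, hz.mono fun t k => k.spt.mem 1⟩)
    (by convert z0.spt using 1; exact funext (Fin.forall_fin_two.2 ⟨rfl, rfl⟩))
  have e0 : ∀ᶠ t in 𝓝 t₀, a (π t) = σ 0 (π t, 0) := (s2 0).mono fun _ => Eq.symm
  have e1 : ∀ᶠ t in 𝓝 t₀, b (π t) = σ 1 (π t, 0) := (s2 1).mono fun _ => Eq.symm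
  rw [e0.self_of_nhds, e1.self_of_nhds] at z0 ⊢
  obtain ⟨f, Φ, f1, f2, f3⟩ := exists_nf h (s1.chart 0) (s1.chart 1) z0
  obtain ⟨f', Φ', -, g2, g3⟩ := exists_nf h (s1.chart 1) (s1.chart 0) z0.symm
  have an : ∀ k, AnalyticAt ℂ (fun p => fderiv ℂ (σ k) (p, 0) (0, 1)) (π t₀) := fun k =>
    ((ContinuousLinearMap.apply ℂ (V M) ((0 : P), (1 : ℂ))).analyticAt _).comp
      ((s1.chart k).an.fderiv.comp (f := fun p => (p, (0 : ℂ))) (analyticAt_id.prod analyticAt_const))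
  refine ⟨_, _, Φ, an 0, an 1, f1, ?_, ?_⟩
  · filter_upwards [e0, e1, f3, g3, s1.eventually h] with t a1 a2 a3 a4 a5
    have d : ∀ k, deriv (fun z => σ k (π t, z)) 0 = fderiv ℂ (σ k) (π t, 0) (0, 1) := fun k =>
      fderiv_inr (a5.chart k).an 1
    rw [a1, a2]
    exact ⟨⟨_, a3.2.1, rfl, d 0⟩, ⟨_, a4.2.1, rfl, d 1⟩, _, _, _, a3.1,
      ⟨a3.2.1, rfl, 0, by rw [zero_smul, zero_add, d]⟩,
      ⟨a4.2.1, rfl, 0, by rw [zero_smul, zero_add, d]⟩, a3.2.2⟩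
  rintro c τ h1 ⟨ρ, rfl, t1, t2, t3⟩ hs u u0 u1 u2 u3
  have c0 := NdAt.mem ⟨ρ, rfl, t1, t2, t3⟩
  have c1 := t3.isCross t2 (h.ne_zero.self_of_nhds _ c0 o)
  have c2 : Off ![σ 0 (π t₀, 0), σ 1 (π t₀, 0)] (ρ (π t₀, 0)) := fun j k =>
    z0.spt.sm j (z0.crv.nod.isNode_orb ⟨_, _, c1⟩ k.symm)
  have F := f3.self_of_nhds
  have G := g3.self_of_nhds
  obtain ⟨n1, n2⟩ := z0.node h1 hs F.1 F.2.1 (.refl _) one_ne_zero F.2.2.1 c1
  obtain ⟨n3, n4⟩ := z0.symm.node h1 hs.symm G.1 G.2.1 (.refl _) one_ne_zero G.2.2.1 c1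
  have l : AnalyticAt ℂ (fun r => τ (π (u r))) 0 := t1.comp_of_eq u2 (by rw [u0])
  obtain ⟨μ, hμ⟩ := IsAlgClosed.exists_eq_mul_self (deriv (fun r => τ (π (u r))) 0)
  have μ0 : μ ≠ 0 := fun e => u3 (by rw [hμ, e, mul_zero])
  set κ := dslope (fun r => τ (π (u r))) 0
  have κ1 : AnalyticAt ℂ κ 0 := (let ⟨_, k⟩ := l; ⟨_, k.has_fpower_series_dslope_fslope⟩)
  have κ2 : ∀ r, r * κ r = τ (π (u r)) := fun r => by
    simpa [u0, t2] using sub_smul_dslope (fun r => τ (π (u r))) 0 r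
  have q : HasDerivAt (fun s : ℂ => s ^ 2) 0 0 := by simpa using hasDerivAt_pow 2 (0 : ℂ)
  have q0 : (0 : ℂ) = 0 ^ 2 := by simp
  have v1 : ContinuousAt (fun s : ℂ => u (s ^ 2)) 0 := u1.comp_of_eq q.continuousAt q0.symm
  have v2 : HasDerivAt (fun s : ℂ => π (u (s ^ 2))) 0 0 := by
    simpa using! u2.differentiableAt.hasDerivAt.scomp_of_eq 0 q q0
  have hx : HasDerivAt (fun s : ℂ => μ * s) μ 0 := by simpa using (hasDerivAt_id' 0).const_mul μ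
  have hy : HasDerivAt (fun s : ℂ => μ⁻¹ * (s * κ (s ^ 2))) μ 0 := by
    refine (((hasDerivAt_id' 0).mul (κ1.differentiableAt.hasDerivAt.comp_of_eq 0 q q0)).const_mul
      μ⁻¹).congr_deriv ?_
    simp [κ, dslope_same, hμ, μ0]
  have e : ∀ᶠ s in 𝓝 (0 : ℂ), μ * s * (μ⁻¹ * (s * κ (s ^ 2))) = τ (π (u (s ^ 2))) :=
    .of_forall fun s => by rw [← κ2]; field_simp
  have w0 : u (0 ^ 2) = t₀ := q0 ▸ u0
  have A := nd_deriv h t3 (f2 _ c0 c2) t2 w0 v1 v2 hx hy (by simp) (by simp) e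
  have B := nd_deriv h t3 (g2 _ c0 (off_two.2 (off_two.1 c2).symm)) t2 w0 v1 v2 hx hy (by simp)
    (by simp) e
  refine (deriv_of_sq (f1.comp_of_eq u2 (by rw [u0])).differentiableAt.hasDerivAt A B
    (by simpa [u0] using! n1) (by simpa [u0] using! n3) ?_).trans_ne
      (mul_ne_zero (mul_ne_zero μ0 n2) (mul_ne_zero μ0 n4))
  have c3 : Tendsto (fun s : ℂ => (u (s ^ 2), μ * s, μ⁻¹ * (s * κ (s ^ 2)))) (𝓝 0) (𝓝 (t₀, 0)) := by
    simpa [u0] using! (v1.prodMk (hx.continuousAt.prodMk hy.continuousAt)).tendsto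
  have c4 : Tendsto (fun s : ℂ => u (s ^ 2)) (𝓝 0) (𝓝 t₀) := w0 ▸ v1.tendsto
  have c5 := (Tendsto.prodMk_nhds continuousAt_fst (t3.tendsto hπ)).eventually
    (s1.eventually_off h (h.ne_zero.self_of_nhds _ c0) (Fin.forall_fin_two.2 (off_two.1 c2)))
  filter_upwards [c3.eventually t3.mem, c3.eventually c5, e, c4.eventually hz, c4.eventually e0,
    c4.eventually e1, c4.eventually f3, c4.eventually g3] with s a1 a2 a3 a4 a5 a6 a7 a8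
  rw [a5, a6] at a4
  exact ((a4.mul_const a7.1 a8.1 a8.2.1 (.refl _) a7.2.2.2 a8.2.2.1 _ (a1 a3)
    (off_two.2 ⟨a2 0, a2 1⟩)).trans (mul_one _)).symm

end Vale.Agent.P269.Trr
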