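import Vale.Agent.P287Q.Trr.Fib
import Vale.Agent.P269.Base.Map

/-!
# The pairing of the tangent lines is well defined, bilinear and invariant
-/

set_option linter.unusedSectionVars false

namespace Vale.Agent.P269.Trr

open Set Function Topology Filter Vale.Agent.P269.Base Vale.Agent.P269.Cv

variable {ι : Type} [Fintype ι] {M : ι → ℕ} {o : ι} {m : ι → ℤ} {C : Set (V M)}
  {c p q v w : V M} {f f' : V M → ℂ} {γ γ' δ : ℂ → V M} {z z' : ℂ}

/-- The leading coefficient along a branch depends only on the tangent vector. -/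
theorem Tb.vz (hγ : Tb o C p v γ) (hγ' : Tb o C p v γ') (hC : Nod o C) (hn : ¬IsNode o C p)
    (hom : ∀ s : ι → ℂ, (∀ i, s i ≠ 0) → ∀ c ∈ C, f (s • c) = chz 0 s * f c) {k : ℤ}
    (hx : Vz k (fun t => f (γ t)) z) : Vz k (fun t => f (γ' t)) z := by
  obtain ⟨a1, a2, a, a3⟩ := hγ
  obtain ⟨b1, b2, b, b3⟩ := hγ'
  obtain ⟨j, s, ψ, e1, e2, e3, e4, e5, e6, e7⟩ :=
    (hC.loc_of_branch a1 (a2 ▸ hn)).reparam b1 (b2.trans a2.symm)
  have e8 : deriv ψ 0 = 1 := by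
    refine sub_eq_zero.1 ((li_pair_iff.1 a1.imm).2 _ (a o - b o - deriv s 0 o) ?_)
    have := congrFun (a3.symm.trans b3) o
    rw [e7, ← a2] at this
    simp only [Pi.add_apply, Pi.smul_apply, Pi.smul_apply'] at this
    linear_combination (norm := module) -this
  have t1 : Tendsto ψ (𝓝 0) (𝓝 0) := by simpa [e4] using e2.continuousAt.tendsto
  have := hx.comp e2 e4 e5
  rw [e8, one_zpow, one_mul] at this
  refine this.congr (mem_nhdsWithin_of_mem_nhds ?_)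
  filter_upwards [e6, t1.eventually a1.mem, eventually_all.2 fun i =>
    (continuousAt_pi.1 e1.continuousAt i).eventually_ne (y := 0) (by simp [e3])] with t k1 k2 k3
  rw [k1, hom _ k3 _ k2, chz_zero, one_mul]

theorem Gz.pr_uniq (h : Gz o m C p q) (hz : Pr o C p q v w z) (hz' : Pr o C p q v w z') :
    z = z' := by
  obtain ⟨f, γ, δ, a1, a2, a3, a4, a5⟩ := hz
  obtain ⟨f', γ', δ', b1, b2, b3, b4, b5⟩ := hz'
  have k1 := b2.vz a2 h.crv.nod (h.spt.sm 0) b1.hom b4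
  have k2 := b3.vz a3 h.crv.nod (h.spt.sm 1) b1.hom b5
  have k3 := h.eq_zero (a1.add (b1.smul (-1))) a2.1 (a2.2.1 ▸ .refl _)
    (by simpa using a4.add (k1.const_mul (-1)))
  refine (a5.congr ?_).unique k2
  filter_upwards [mem_nhdsWithin_of_mem_nhds a3.1.mem,
    a3.1.eventually_off (z := ![p, q]) h.crv.nod] with t e1 e2
  linear_combination k3 _ e1 e2

theorem Gz.pr_eq (h : Gz o m C p q) (hz : Pr o C p q v w z) : pr o C p q v w = z :=
  (dif_pos ⟨z, hz⟩).trans (h.pr_uniq (Exists.choose_spec (⟨z, hz⟩ : ∃ z, Pr o C p q v w z)) hz)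

theorem Gz.exists_pr (h : Gz o m C p q) (hγ : Tb o C p v γ) (hδ : Tb o C q w δ) :
    Pr o C p q v w (pr o C p q v w) := by
  obtain ⟨f, h1, h2⟩ := h.exists_bas hγ.1 (hγ.2.1 ▸ .refl _)
  obtain ⟨z, h3⟩ := (h1.mer ()).ord 1 δ hδ.1 (hδ.2.1 ▸ .refl _)
  have k : Pr o C p q v w z := ⟨f, γ, δ, h1.mer (), hγ, hδ, h2, h3⟩
  exact h.pr_eq k ▸ k

theorem pr_zero (h : (∀ γ, ¬Tb o C p v γ) ∨ ∀ δ, ¬Tb o C q w δ) : pr o C p q v w = 0 :=
  dif_neg fun ⟨_, _, γ, δ, _, a, b, _⟩ => h.elim (fun k => k γ a) fun k => k δ b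

theorem not_tb (s : ι → ℂ) (γ : ℂ → V M) : ¬Tb o C p (s • p) γ := fun ⟨a1, a2, a, a3⟩ =>
  one_ne_zero ((li_pair_iff.1 a1.imm).2 1 (s o - a o) (by
    have := congrFun a3 o
    rw [← a2] at this
    simp only [Pi.add_apply, Pi.smul_apply'] at this
    linear_combination (norm := module) -this))

theorem Tb.scale (hγ : Tb o C p v γ) (s : ι → ℂ) (hz : z ≠ 0) :
    Tb o C p (s • p + z • v) fun t => γ (z * t) := by
  obtain ⟨a1, a2, a, a3⟩ := hγ
  have e1 : AnalyticAt ℂ (fun t : ℂ => z * t) 0 := analyticAt_const.mul analyticAt_id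
  have e2 : deriv (fun t => γ (z * t)) 0 = z • deriv γ 0 := by
    have := (a1.holo.differentiableAt.hasDerivAt.scomp_of_eq (0 : ℂ)
      ((hasDerivAt_id (0 : ℂ)).const_mul z) (mul_zero z).symm).deriv
    rwa [mul_one] at this
  have t1 : Tendsto (fun t : ℂ => z * t) (𝓝 0) (𝓝 0) := by simpa using e1.continuousAt.tendsto
  refine ⟨⟨a1.holo.comp_of_eq e1 (mul_zero z), t1.eventually a1.mem, ?_⟩,
    (congrArg γ (mul_zero z)).trans a2,
    s + fun i => z * a i, ?_⟩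
  · rw [e2, mul_zero]
    refine li_pair_iff.2 ⟨(li_pair_iff.1 a1.imm).1, fun e r k => ?_⟩
    rw [Pi.smul_apply, smul_smul] at k
    exact (mul_eq_zero.1 ((li_pair_iff.1 a1.imm).2 _ r k)).resolve_right hz
  · rw [e2, a3]
    funext i
    simp only [Pi.add_apply, Pi.smul_apply, Pi.smul_apply']
    module

theorem vz_scale {u : ℂ → ℂ} {k : ℤ} {x : ℂ} (h : Vz k u x) (hz : z ≠ 0) :
    Vz k (fun t => u (z * t)) (z ^ k * x) := by
  have e : deriv (fun t : ℂ => z * t) 0 = z := by simp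
  simpa only [e] using h.comp (φ := fun t => z * t) (analyticAt_const.mul analyticAt_id)
    (mul_zero z) (e.symm ▸ hz)

theorem Gz.pr_smul (h : Gz o m C p q) (hγ : Tb o C p v γ) (hδ : Tb o C q w δ) (s s' : ι → ℂ)
    (z z' : ℂ) : pr o C p q (s • p + z • v) (s' • q + z' • w) = z * z' * pr o C p q v w := by
  by_cases hz : z = 0
  · rw [hz, zero_smul, add_zero, pr_zero (.inl (not_tb s)), zero_mul, zero_mul]
  by_cases hz' : z' = 0
  · rw [hz', zero_smul, add_zero, pr_zero (.inr (not_tb s')), mul_zero, zero_mul]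
  obtain ⟨f, γ, δ, a1, a2, a3, a4, a5⟩ := h.exists_pr hγ hδ
  refine h.pr_eq ⟨fun c => z * f c, _, _, a1.smul z, a2.scale s hz, a3.scale s' hz', ?_, ?_⟩
  · simpa [hz] using (vz_scale a4 hz).const_mul z
  · simpa [mul_assoc] using (vz_scale a5 hz').const_mul z

section map

variable {g : ∀ i, (Fin (M i) → ℂ) ≃L[ℂ] (Fin (M i) → ℂ)} {s s' : ι → ℂ}

theorem orb_gV : Base.Orb (gV g p) (gV g q) ↔ Base.Orb p q :=
  exists_congr fun s => and_congr_right fun _ => by rw [← gV_smul, (gV g).injective.eq_iff]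

theorem gV_back : ∀ c ∈ gV g '' C, gV (fun i => (g i).symm) c ∈ C := by
  rintro _ ⟨c, hc, rfl⟩
  exact ((gV g).symm_apply_apply c).symm ▸ hc

theorem Gz.orb {p' q' : V M} (h : Gz o m C p q) (e1 : Base.Orb p p') (e2 : Base.Orb q q') :
    Gz o m C p' q' :=
  let ⟨a, b, k⟩ := spt_two.1 h.spt
  ⟨h.crv, h.conn, spt_two.2 ⟨⟨h.crv.nod.orb a.1 e1, fun e => a.2 (h.crv.nod.isNode_orb e e1.symm)⟩,
    ⟨h.crv.nod.orb b.1 e2, fun e => b.2 (h.crv.nod.isNode_orb e e2.symm)⟩,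
    fun e => k (e1.trans (e.trans e2.symm))⟩⟩

theorem Gz.map (h : Gz o m C p q) (g : ∀ i, (Fin (M i) → ℂ) ≃L[ℂ] (Fin (M i) → ℂ)) :
    Gz o m (gV g '' C) (gV g p) (gV g q) :=
  let ⟨a, b, k⟩ := spt_two.1 h.spt
  ⟨h.crv.map, h.conn.image _ (gV g).continuous.continuousOn,
    spt_two.2 ⟨⟨mem_image_of_mem _ a.1, fun e => a.2 (isNode_map_iff.1 e)⟩,
      ⟨mem_image_of_mem _ b.1, fun e => b.2 (isNode_map_iff.1 e)⟩, fun e => k (orb_gV.1 e)⟩⟩

theorem Tb.map (h : Tb o C p v γ) (g : ∀ i, (Fin (M i) → ℂ) ≃L[ℂ] (Fin (M i) → ℂ)) :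
    Tb o (gV g '' C) (gV g p) (gV g v) fun t => gV g (γ t) :=
  let ⟨a1, a2, a, a3⟩ := h
  ⟨a1.map, congrArg _ a2, a, by rw [deriv_gV, a3, map_add, gV_smul]⟩

theorem Tb.smul (h : Tb o C p v γ) (hC : Nod o C) (hs : ∀ i, s i ≠ 0) :
    Tb o C (s • p) (s • v) fun t => s • γ t :=
  let ⟨a1, a2, a, a3⟩ := h
  ⟨a1.smul hC hs, congrArg _ a2, a, by
    rw [show deriv (fun t => s • γ t) 0 = s • deriv γ 0 from deriv_gV (g := gS M hs) γ 0, a3,
      smul_add, smul_comm]⟩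

theorem Pz.map (h : Pz o C p q f) (g : ∀ i, (Fin (M i) → ℂ) ≃L[ℂ] (Fin (M i) → ℂ)) :
    Pz o (gV g '' C) (gV g p) (gV g q) fun c => f (gV (fun i => (g i).symm) c) := by
  have e : ∀ k c, Base.Orb (![gV g p, gV g q] k) c ↔
      Base.Orb (![p, q] k) (gV (fun i => (g i).symm) c) := fun k c => by
    obtain ⟨c, rfl⟩ := (gV g).surjective c
    rw [← gV_symm, ContinuousLinearEquiv.symm_apply_apply]
    revert k
    exact Fin.forall_fin_two.2 ⟨orb_gV, orb_gV⟩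
  exact ⟨fun s hs c hc => by rw [gV_smul, h.hom s hs _ (gV_back c hc)],
    fun γ hγ ho => h.reg _ (hγ.map' gV_back) fun k a => ho k ((e k _).2 a),
    fun k γ hγ a => h.ord k _ (hγ.map' gV_back) ((e k _).1 a)⟩

theorem Pr.map (h : Pr o C p q v w z) (g : ∀ i, (Fin (M i) → ℂ) ≃L[ℂ] (Fin (M i) → ℂ)) :
    Pr o (gV g '' C) (gV g p) (gV g q) (gV g v) (gV g w) z := by
  obtain ⟨f, γ, δ, a1, a2, a3, a4, a5⟩ := h
  refine ⟨_, _, _, a1.map g, a2.map g, a3.map g, ?_, ?_⟩ <;>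
    simpa only [← gV_symm, ContinuousLinearEquiv.symm_apply_apply]

theorem Pr.smul (h : Pr o C p q v w z) (hC : Nod o C) (hs : ∀ i, s i ≠ 0) (hs' : ∀ i, s' i ≠ 0) :
    Pr o C (s • p) (s' • q) (s • v) (s' • w) z := by
  obtain ⟨f, γ, δ, a1, a2, a3, a4, a5⟩ := h
  refine ⟨f, _, _, a1.orb (Fin.forall_fin_two.2 ⟨⟨s, hs, rfl⟩, ⟨s', hs', rfl⟩⟩), a2.smul hC hs,
    a3.smul hC hs', a4.congr (mem_nhdsWithin_of_mem_nhds (a2.1.mem.mono fun t e => ?_)),
    a5.congr (mem_nhdsWithin_of_mem_nhds (a3.1.mem.mono fun t e => ?_))⟩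
  · rw [a1.hom s hs _ e, chz_zero, one_mul]
  · rw [a1.hom s' hs' _ e, chz_zero, one_mul]

theorem pr_congr {C' : Set (V M)} {p' q' v' w' : V M}
    (h : ∀ z, Pr o C p q v w z ↔ Pr o C' p' q' v' w' z) : pr o C p q v w = pr o C' p' q' v' w' := by
  classical
  exact congrArg (fun P : ℂ → Prop => if h : ∃ z, P z then h.choose else 0)
    (funext fun z => propext (h z))

theorem pr_map (g : ∀ i, (Fin (M i) → ℂ) ≃L[ℂ] (Fin (M i) → ℂ)) :
    pr o (gV g '' C) (gV g p) (gV g q) (gV g v) (gV g w) = pr o C p q v w :=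
  pr_congr fun z => ⟨fun h => by
    have k := h.map fun i => (g i).symm
    rw [symm_image_image] at k
    simpa only [← gV_symm, ContinuousLinearEquiv.symm_apply_apply] using k, fun h => h.map g⟩

theorem pr_orb (hC : Nod o C) (hs : ∀ i, s i ≠ 0) (hs' : ∀ i, s' i ≠ 0) :
    pr o C (s • p) (s' • q) (s • v) (s' • w) = pr o C p q v w :=
  pr_congr fun z => ⟨fun h => by
    simpa only [inv_smul_smul' hs, inv_smul_smul' hs'] using h.smul (s := s⁻¹) (s' := s'⁻¹) hC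
      (fun i => inv_ne_zero (hs i)) fun i => inv_ne_zero (hs' i), fun h => h.smul hC hs hs'⟩

theorem Gz.pr_act (h : Gz o m C p q) (g : ∀ i, (Fin (M i) → ℂ) ≃L[ℂ] (Fin (M i) → ℂ))
    {s s' : ι → ℂ} (hs : ∀ i, s i ≠ 0) (hs' : ∀ i, s' i ≠ 0) (v w : V M) :
    pr o (gV g '' C) (s • gV g p) (s' • gV g q) (s • gV g v) (s' • gV g w) = pr o C p q v w :=
  (pr_orb h.crv.nod.map hs hs').trans (pr_map g)

theorem par_map {X : Type} [TopologicalSpace X] [T2Space X] [CompactSpace X] {R : RS X}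
    {N : Finset (X × X)} {A : ι → LB R} {π : X → V M} (h : Par o C N A π)
    (g : ∀ i, (Fin (M i) → ℂ) ≃L[ℂ] (Fin (M i) → ℂ)) :
    Par o (gV g '' C) N A fun x => gV g (π x) := by
  have e : ∀ x, br A (fun x => gV g (π x)) x = fun t => gV g (br A π x t) := fun x => by
    funext t i j
    have k : br A π x t i = ((A i).φ x (R.i x t))⁻¹ • π (R.i x t) i :=
      funext fun j => div_eq_inv_mul _ _
    rw [gV_apply, k, map_smul]
    exact div_eq_inv_mul _ _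
  refine ⟨h.nd, fun i j => ?_, fun x i => (gV_ne i).2 (h.ne x i), fun c => ?_,
    fun x y t k => h.inj x y t ((gV g).injective (k.trans (gV_smul _ _).symm)), fun x => ?_,
    fun n hn => ?_⟩
  · classical
    have k : (fun x => gV g (π x) i j) = ∑ l, g i (Pi.single l 1) j • fun x => π x i l := by
      funext x
      rw [gV_apply, pi_eq_sum_univ' (π x i), map_sum]
      simp [mul_comm]
    exact k ▸ sum_mem fun l _ => Submodule.smul_mem _ _ (h.sec i l)
  · constructor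
    · rintro ⟨c, hc, rfl⟩
      obtain ⟨x, t, a, rfl⟩ := (h.img c).1 hc
      exact ⟨x, t, a, gV_smul _ _⟩
    · rintro ⟨x, t, a, rfl⟩
      exact ⟨_, (h.img _).2 ⟨x, t, a, rfl⟩, gV_smul _ _⟩
  · rw [e, deriv_gV]
    have k := li_map (g := g) (h.imm x)
    rwa [show (fun k => g o (![π x o, deriv (br A π x) 0 o] k)) =
      ![g o (π x o), g o (deriv (br A π x) 0 o)] from
        funext (Fin.forall_fin_two.2 ⟨rfl, rfl⟩)] at k
  · rw [e, e, deriv_gV, deriv_gV]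
    have k := li_map (g := g) (h.cross n hn)
    rwa [show (fun k => g o (![π n.1 o, deriv (br A π n.1) 0 o, deriv (br A π n.2) 0 o] k)) =
      ![g o (π n.1 o), g o (deriv (br A π n.1) 0 o), g o (deriv (br A π n.2) 0 o)] from
        funext fun k => by fin_cases k <;> rfl] at k

theorem Sp.map (h : Sp o C c p q) (g : ∀ i, (Fin (M i) → ℂ) ≃L[ℂ] (Fin (M i) → ℂ)) :
    Sp o (gV g '' C) (gV g c) (gV g p) (gV g q) :=
  let ⟨X, _, _, _, R, N, A, _, U, x, y, h1, h2, h3, h4, h5, h6, h7⟩ := h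
  ⟨X, _, ‹_›, ‹_›, R, N, A, _, U, x, y, par_map h1 g, h2, h3, h4, orb_gV.2 h5, orb_gV.2 h6,
    fun n a b => h7 n a fun k => b (orb_gV.2 k)⟩

theorem sp_map_iff : Sp o (gV g '' C) (gV g c) (gV g p) (gV g q) ↔ Sp o C c p q :=
  ⟨fun h => by
    have k := h.map fun i => (g i).symm
    rw [symm_image_image] at k
    simpa only [← gV_symm, ContinuousLinearEquiv.symm_apply_apply] using k, fun h => h.map g⟩

end map

end Vale.Agent.P269.Trr
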