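import Vale.Agent.P287Q.Trr.Defs
import Vale.Agent.P269.Base.Vers
import Vale.Agent.P269.Base.Mark
import Vale.Agent.P269.Spl.Cyc
import Vale.Agent.P269.Gen.Act

/-!
# Curves with two nodes form a closed set of codimension two
-/

set_option linter.unusedSectionVars false

namespace Vale.Agent.P269.Trr

open Set Function Topology Filter Holo Base Module

section fam

variable {ι : Type} [Fintype ι] [DecidableEq ι] {M : ι → ℕ} {o : ι} {P : Type} [NormedAddCommGroup P]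
  [NormedSpace ℂ P] [FiniteDimensional ℂ P]

/-- the nodes of the nearby curves -/
theorem near_nodes {T β : Type} [TopologicalSpace T] {C : T → Set (V M)} {π : T → P} {t₀ : T}
    (hf : LocFam o C π t₀) [Finite β] {c : β → V M} {τ : β → P → ℂ}
    (h : ∀ e, NdAt o C π t₀ (c e) (τ e)) (hc : ∀ y, IsNode o (C t₀) y → ∃ e, Base.Orb (c e) y) :
    ∃ n : β → P → V M, (∀ e, AnalyticAt ℂ (n e) (π t₀) ∧ n e (π t₀) = c e) ∧
      ∀ᶠ t in 𝓝 t₀, (∀ e, τ e (π t) = 0 → IsNode o (C t) (n e (π t))) ∧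
        ∀ y, IsNode o (C t) y → ∃ e, τ e (π t) = 0 ∧ Base.Orb (n e (π t)) y := by
  choose σ h1 h2 h3 h4 using h
  refine ⟨fun e p => σ e (p, 0), fun e =>
    ⟨(h4 e).an.comp_of_eq (analyticAt_id.prod analyticAt_const) rfl, h1 e⟩, .and ?_ ?_⟩
  · filter_upwards [eventually_all.2 fun e => (h4 e).eventually_node (h3 e) hf, hf.eventually,
      eventually_all.2 fun e => hf.cont.self_of_nhds.eventually (h2 e).eventually_analyticAt]
      with t a b k e z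
    exact NdAt.isNode ⟨σ e, rfl, k e, z, a e⟩ b
  refine (hf.compact (p := fun q => IsNode o (C q.1) q.2 →
    ∃ e, τ e (π q.1) = 0 ∧ Base.Orb (σ e (π q.1, 0)) q.2) (fun y hy => ?_) ?_).mono
      fun t a y k => a y (MarkP.mem_of_isNode k) k
  · by_cases hn : IsNode o (C t₀) y
    · obtain ⟨e, s, hs, rfl⟩ := hc y hn
      have t1 : Tendsto (fun q : T × V M => (q.1, s⁻¹ • q.2)) (𝓝 (t₀, s • c e))
          (𝓝 (t₀, σ e (π t₀, 0))) := by
        rw [h1, ← inv_smul_smul' hs (c e)]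
        exact continuousAt_fst.tendsto.prodMk_nhds
          (tendsto_smul tendsto_const_nhds (by rw [inv_smul_smul' hs]; exact continuousAt_snd))
      have hs' : ∀ i, s⁻¹ i ≠ 0 := fun i => inv_ne_zero (hs i)
      filter_upwards [t1.eventually (NdAt.eventually (h4 e) (h2 e) (h3 e) hf),
        continuousAt_fst.eventually hf.eventually] with q a b k k'
      have m := b.nod.cone _ hs' _ k
      obtain ⟨a1, ⟨s', a2⟩, -⟩ := (a m).resolve_left fun z =>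
        z.not_isNode b (k'.smul hs' (b.nod.cone _ hs'))
      exact ⟨e, a1, (Base.Orb.of_smul (b.nod.ne_zero _ m) a2).trans (Base.Orb.symm ⟨_, hs', rfl⟩)⟩
    · filter_upwards [(hf.smAt hy hn).eventually hf, continuousAt_fst.eventually hf.eventually]
        with q a b k k' using ((a k).not_isNode b k').elim
  · filter_upwards [hf.eventually] with t a s hs y _ k k'
    exact (k (k'.smul hs (a.nod.cone _ hs))).imp fun e z =>
      ⟨z.1, z.2.trans (Base.Orb.symm ⟨_, hs, rfl⟩)⟩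

theorem two_le {E : Type} [NormedAddCommGroup E] [NormedSpace ℂ E] {T : Set P} {m : ℕ} {x : P}
    (h : MfdAt T m x) {Φ : P → E} (hΦ : AnalyticAt ℂ Φ x) (hs : ⊤ ≤ Submodule.span ℂ
      {b | ∃ c, Arc T x c ∧ deriv (fun ε => Φ (c ε)) 0 = b}) : finrank ℂ E ≤ m := by
  have : ⊤ ≤ (tan (Subtype.val : T → P) ⟨x, h.1⟩).map (fderiv ℂ Φ x : P →ₗ[ℂ] E) :=
    hs.trans (Submodule.span_le.2 (by
      rintro _ ⟨c, hc, rfl⟩
      exact ⟨_, hc.mem_tan h.1, (HasFDerivAt.comp_hasDerivAt_of_eq 0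
        hΦ.differentiableAt.hasFDerivAt hc.an.differentiableAt.hasDerivAt hc.zero.symm).deriv.symm⟩))
  rw [← h.2.finrank_tan, ← finrank_top, ← top_le_iff.1 this]
  exact Submodule.finrank_map_le _ _

theorem On.map {C : Set (V M)} (h : On o C) (g : ∀ i, (Fin (M i) → ℂ) ≃L[ℂ] (Fin (M i) → ℂ)) :
    On o (gV g '' C) := fun c c' a b => by
  obtain ⟨c, rfl⟩ := (gV g).surjective c
  obtain ⟨c', rfl⟩ := (gV g).surjective c'
  obtain ⟨s, hs, rfl⟩ := h c c' (isNode_map_iff.1 a) (isNode_map_iff.1 b)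
  exact ⟨s, hs, funext fun i => map_smul (g i) _ _⟩

end fam

open Ch

variable {S Λ R J ν κ ι : Type} [Fintype S] [Fintype Λ] [Fintype R] [Fintype J] [Fintype ν]
  [Fintype κ] [Fintype ι] [DecidableEq ι] {ch : Ch ι J} {B : Set (Λ → ℂ)}
  {T : Set (ch.WF ν κ Λ)} {x : ch.WF ν κ Λ} {N : ℕ}

theorem locFam_two (h : Num₀ ch) (hT : T ⊆ ch.baseF ν κ B) (x : T) :
    LocFam ch.o (fun y : T => crv y.1.2) Subtype.val x :=
  h.cut.elim fun _ hl => locFam_of_hol (x := fun y : T => y.1.2) hl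
    (.of_forall fun _ => continuous_subtype_val.continuousAt) (HolAt.of_an analyticAt_snd)
    (.of_forall fun y => (hT y.2).2.1)

theorem On.actF {F : Wt S Λ R J} {s : ch.AF ν κ S} (hs : IsUnit s) (h : On ch.o (crv x.2)) :
    On ch.o (crv (actF F s x).2) := by
  obtain ⟨u, hu⟩ := isUnit_dupF hs
  have e : crv (Ch.actF F s x).2 = gV (gU u) '' crv x.2 := Set.ext fun c => by
    simp only [mem_crv_actF hs, mem_image, gV_gU, hu]
    rfl
  exact e ▸ h.map _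

variable (h : Num₀ ch) (hT : T ⊆ ch.baseF ν κ B)
  (hV : ∀ x ∈ T, ∀ᶠ y in 𝓝 x, y ∈ ch.baseF ν κ B → y.1 = x.1 → y.2.X = x.2.X → y ∈ T)
include h hT hV

/-- the smoothing parameters of all nodes -/
theorem exists_taus (hx : x ∈ T) : ∃ (m : ℕ) (c : Fin m → V ch.M) (τ : Fin m → ch.WF ν κ Λ → ℂ)
    (n : Fin m → ch.WF ν κ Λ → V ch.M), Reps (crv x.2) (IsNode ch.o (crv x.2)) c ∧
      (∀ e, NdAt ch.o (fun y : T => crv y.1.2) Subtype.val ⟨x, hx⟩ (c e) (τ e)) ∧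
      (∀ t : Fin m → ℂ, ∃ γ, Arc T x γ ∧ ∀ e, deriv (fun ε => τ e (γ ε)) 0 = t e) ∧
      (∀ e, AnalyticAt ℂ (n e) x ∧ n e x = c e) ∧
      ∀ᶠ y in 𝓝 x, y ∈ T → (∀ e, τ e y = 0 → IsNode ch.o (crv y.2) (n e y)) ∧
        ∀ z, IsNode ch.o (crv y.2) z → ∃ e, τ e y = 0 ∧ Base.Orb (n e y) z := by
  have hf := locFam_two h hT ⟨x, hx⟩
  obtain ⟨m, c, hc⟩ := hf.nod.exists_nodes
  obtain ⟨τ, h1, h2⟩ := h.exists_tauF hT hx (hV x hx) hc.prop hc.inj
  obtain ⟨n, h3, h4⟩ := near_nodes hf h1 fun y k => hc.ex y (MarkP.mem_of_isNode k) k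
  exact ⟨m, c, τ, n, hc, h1, fun t => (h2 t).imp fun _ a => ⟨a.1, a.2.2⟩, h3, (ev_sub hx
    (p := fun y => (∀ e, τ e y = 0 → IsNode ch.o (crv y.2) (n e y)) ∧
      ∀ z, IsNode ch.o (crv y.2) z → ∃ e, τ e y = 0 ∧ Base.Orb (n e y) z)).1 h4⟩

theorem eventually_on (hx : x ∈ T) (ho : On ch.o (crv x.2)) :
    ∀ᶠ y in 𝓝 x, y ∈ T → On ch.o (crv y.2) := by
  obtain ⟨m, c, τ, n, h1, -, -, -, h2⟩ := exists_taus h hT hV hx
  filter_upwards [h2] with y a b z z' k k'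
  obtain ⟨e, -, a1⟩ := (a b).2 z k
  obtain ⟨e', -, a2⟩ := (a b).2 z' k'
  obtain rfl := h1.inj e e' (ho _ _ (h1.prop e) (h1.prop e'))
  exact a1.symm.trans a2

theorem clo_two : Clo (T ∩ {x | ¬On ch.o (crv x.2)}) T :=
  ⟨_, isClosed_closure, subset_antisymm (subset_inter inter_subset_left subset_closure)
    fun _ hx => ⟨hx.1, fun k =>
      let ⟨_, a, b⟩ := mem_closure_iff_nhds.1 hx.2 _ (eventually_on h hT hV hx.1 k)
      b.2 (a b.1)⟩⟩

/-- **two nodes are a condition of codimension two** -/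
theorem dimLt_two (hm : ∀ x ∈ T, MfdAt T (N + 1) x) :
    DimLt N (T ∩ {x | ¬On ch.o (crv x.2)}) := by
  classical
  have := FiniteDimensional.complete ℂ (ch.WF ν κ Λ)
  refine DimLt.of_locally fun x hx => ?_
  obtain ⟨m, c, τ, n, -, h1, h2, -, h3⟩ := exists_taus h hT hV hx.1
  have key : ∀ q : Fin m × Fin m, ∃ U ∈ 𝓝 x, q.1 ≠ q.2 →
      DimLt N ({y | y ∈ T ∧ (τ q.1 y, τ q.2 y) = 0} ∩ U) := fun q => by
    by_cases hq : q.1 = q.2
    · exact ⟨univ, univ_mem, fun a => (a hq).elim⟩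
    obtain ⟨-, -, a1, a2, -⟩ := h1 q.1
    obtain ⟨-, -, b1, b2, -⟩ := h1 q.2
    have sp : ⊤ ≤ Submodule.span ℂ {b | ∃ γ, Arc T x γ ∧
        deriv (fun ε => (τ q.1 (γ ε), τ q.2 (γ ε))) 0 = b} := fun b _ => by
      obtain ⟨γ, g1, g2⟩ := h2 (Pi.single q.1 b.1 + Pi.single q.2 b.2)
      refine Submodule.subset_span ⟨γ, g1, ?_⟩
      refine ((a1.comp_of_eq g1.an g1.zero).differentiableAt.hasDerivAt.prodMk
        (b1.comp_of_eq g1.an g1.zero).differentiableAt.hasDerivAt).deriv.trans ?_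
      exact Prod.ext ((g2 _).trans (by simp [hq])) ((g2 _).trans (by simp [Ne.symm hq]))
    have le := two_le (hm x hx.1) (a1.prod b1) sp
    rw [finrank_prod, finrank_self] at le
    have k := ((hm x hx.1).sub (n := N - 1) (a1.prod b1) (Prod.ext a2 b2) sp
      (.of_forall fun _ => Iff.rfl) (by rw [finrank_prod, finrank_self]; omega)).eventually
    obtain ⟨U, u1, u2, u3⟩ := eventually_nhds_iff.1 k
    refine ⟨U, u2.mem_nhds u3, fun _ => (DimLt.of_mfd' (n := N - 1) fun y => ?_).le (by omega)⟩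
    exact ((u1 _ y.2.2 y.2.1).congr ((u2.eventually_mem y.2.2).mono fun _ a =>
      (and_iff_left a).symm)).isMfd _
  choose U h4 h5 using key
  refine ⟨_, inter_mem h3 (iInter_mem.2 h4), (DimLt.iUnion fun q : {q : Fin m × Fin m // q.1 ≠ q.2} =>
    h5 q.1 q.2).mono fun y hy => ?_⟩
  obtain ⟨z, z', a, b, k⟩ : ∃ z z', IsNode ch.o (crv y.2) z ∧ IsNode ch.o (crv y.2) z' ∧
    ¬Base.Orb z z' := by simpa [On] using hy.1.2
  obtain ⟨e, a1, a2⟩ := (hy.2.1 hy.1.1).2 z a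
  obtain ⟨e', b1, b2⟩ := (hy.2.1 hy.1.1).2 z' b
  exact mem_iUnion.2 ⟨⟨(e, e'), fun q : e = e' => k (a2.symm.trans (q ▸ b2))⟩,
    ⟨hy.1.1, Prod.ext a1 b1⟩, mem_iInter.1 hy.2.2 _⟩

end Vale.Agent.P269.Trr
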