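import Vale.Agent.P287Q.Trr.Pair
import Vale.Agent.P287Q.Trr.Two
import Vale.Agent.P287Q.Trr.Pr
import Vale.Agent.P287Q.Trr.FamA
import Vale.Agent.P269.Map.TrvC
import Vale.Agent.P287Q.G.Map.Psi

/-!
# The divisor of the pairing of two tangent lines on a family of rational curves
-/

set_option linter.unusedSectionVars false

namespace Vale.Agent.P269.Trr

open Set Function Topology Filter P291Z Holo Base Ch

variable {S Λ R J ν κ ι : Type} [Fintype S] [Fintype Λ] [Fintype R] [Fintype J] [Fintype ν]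
  [Fintype κ] [Fintype ι] [DecidableEq ι] {ch : Ch ι J} {B : Set (Λ → ℂ)} {F : Wt S Λ R J}
  {T : Set (ch.WF ν κ Λ)} {x : ch.WF ν κ Λ} {a b : Mk ν κ}

/-- The pairing of the tangent lines at the marked points `a` and `b`. -/
noncomputable def bet (a b : Mk ν κ) (x : ch.WF ν κ Λ) (v w : V ch.M) : ℂ :=
  pr ch.o (crv x.2) (x.2.p a) (x.2.p b) v w

/-- Some node separates the marked points `a` and `b`. -/
def SpN (a b : Mk ν κ) (x : ch.WF ν κ Λ) : Prop :=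
  ∃ c, IsNode ch.o (crv x.2) c ∧ Sp ch.o (crv x.2) c (x.2.p a) (x.2.p b)

theorem gz_of (hg : ch.g = 0) (hab : a ≠ b) (hx : x.2 ∈ ch.base _) (hc : IsConnected (crv x.2)) :
    Gz ch.o ch.m (crv x.2) (x.2.p a) (x.2.p b) :=
  ⟨hg ▸ hx.2.2.1, hc, spt_two.2 ⟨hx.2.2.2.1 a, hx.2.2.2.1 b, fun k =>
    let ⟨s, _, e⟩ := k.symm; hab (hx.2.2.2.2.1 a b s e)⟩⟩

theorem exists_crd (hx : x.2 ∈ ch.base _) (a : Mk ν κ) : ∃ u γ, Tb ch.o (crv x.2) (x.2.p a) u γ ∧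
    u ∈ (ch.sdψ S Λ a).B x ∧ (∀ n ∈ (ch.sdψ S Λ a).N x, ∃ s : ι → ℂ, n = s • x.2.p a) ∧
      ∀ v ∈ (ch.sdψ S Λ a).B x, ∃ (s : ι → ℂ) (z : ℂ), v = s • x.2.p a + z • u := by
  obtain ⟨γ, h1, h2⟩ := Psi.exists_br hx.2.2.1.nod (hx.2.2.2.1 a).1
  refine ⟨_, γ, ⟨h1, h2, 0, by rw [zero_smul, zero_add]⟩,
    Submodule.subset_span ⟨γ, h1.holo, h1.mem, h2, rfl⟩, fun n => mem_sdψ_N.1, fun v hv => ?_⟩
  obtain ⟨z, hz⟩ := (mem_sdψ_B hx h1 h2).1 hv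
  obtain ⟨s, hs⟩ := mem_sdψ_N.1 hz
  exact ⟨s, z, sub_eq_iff_eq_add.1 hs⟩

theorem frm_of (hx : x ∈ T) {v : ch.WF ν κ Λ → V ch.M} (h1 : AnalyticAt ℂ v x)
    (h2 : ∀ᶠ y : T in 𝓝 ⟨x, hx⟩, ∃ γ, IsBranch ch.o (crv y.1.2) γ ∧ γ 0 = y.1.2.p a ∧
      deriv γ 0 = v y.1) : Frm (ch.sdψ S Λ a) T x v := by
  refine ⟨?_, eventually_nhdsWithin_iff.2 ?_⟩
  · obtain ⟨_, c1, c2, c3⟩ := h2.self_of_nhds
    exact c3 ▸ notMem_sdψ_N c1 c2
  refine (h1.eventually_analyticAt.and (ev_sub' h2)).mono fun y c hy => ?_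
  obtain ⟨γ, c1, c2, c3⟩ := c.2 hy
  exact ⟨c.1.continuousAt.continuousWithinAt,
    Submodule.subset_span ⟨γ, c1.holo, c1.mem, c2, c3.symm⟩⟩

variable (h : Num₀ ch) (hg : ch.g = 0) (hab : a ≠ b) (hT : T ⊆ ch.baseF ν κ B)
  (hc : ∀ x ∈ T, IsConnected (crv x.2))
include h hg hab hT hc

theorem exists_frm (hx : x ∈ T) : ∃ v w Φ, Frm (ch.sdψ S Λ a) T x v ∧ Frm (ch.sdψ S Λ b) T x w ∧
    AnalyticAt ℂ Φ x ∧ (∀ᶠ y in 𝓝 x, y ∈ T → bet a b y (v y) (w y) = Φ y ∧ (Φ y = 0 ↔ SpN a b y)) ∧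
    ∀ c τ, On ch.o (crv x.2) → NdAt ch.o (fun y : T => crv y.1.2) Subtype.val ⟨x, hx⟩ c τ →
      Sp ch.o (crv x.2) c (x.2.p a) (x.2.p b) → ∀ γ, Arc T x γ →
        deriv (fun ε => τ (γ ε)) 0 ≠ 0 → deriv (fun ε => Φ (γ ε)) 0 ≠ 0 := by
  have z := fun y hy => gz_of hg hab (hT (a := y) hy).2.1 (hc y hy)
  obtain ⟨v, w, Φ, h1, h2, h3, h4, h5⟩ := exists_loc' (locFam_two h hT ⟨x, hx⟩)
    (a := fun y => y.2.p a) (b := fun y => y.2.p b) (W.an_p analyticAt_snd a)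
    (W.an_p analyticAt_snd b) (.of_forall fun y => z y.1 y.2)
  refine ⟨v, w, Φ, frm_of hx h1 (h4.mono fun _ c => c.1), frm_of hx h2 (h4.mono fun _ c => c.2.1), h3,
    (Holo.ev_sub hx (p := fun y => bet a b y (v y) (w y) = Φ y ∧ (Φ y = 0 ↔ SpN a b y))).1
      (h4.mono fun y c => ⟨(z _ y.2).pr_eq c.2.2, (z _ y.2).zero_iff c.2.2⟩),
    fun c τ k1 k2 k3 γ k4 k5 => ?_⟩
  obtain ⟨u, u1, u2, u3⟩ := k4.lift hx
  have e : ∀ f : ch.WF ν κ Λ → ℂ, deriv (fun ε => f (γ ε)) 0 = deriv (fun ε => f (u ε).1) 0 :=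
    fun f => EventuallyEq.deriv_eq (u3.mono fun _ q => congrArg f q)
  rw [e] at k5 ⊢
  exact h5 c τ k1 k2 k3 u u1 u2 (k4.an.congr u3) k5

theorem prg : Prg (actF F) T (ch.sdψ S Λ a) (ch.sdψ S Λ b) (bet a b) := by
  have z := fun y hy => gz_of hg hab (hT (a := y) hy).2.1 (hc y hy)
  refine ⟨fun x hx v hv n hn w hw c => ?_, fun x hx v hv w hw n hn c => ?_,
    fun s hs x hx v _ w _ => ?_, fun x hx => ?_⟩
  iterate 2
    obtain ⟨u, γ, a1, -, a2, a3⟩ := exists_crd (S := S) (hT hx).2.1 a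
    obtain ⟨u', γ', b1, -, b2, b3⟩ := exists_crd (S := S) (hT hx).2.1 b
    obtain ⟨s, y, rfl⟩ := a3 v hv
    obtain ⟨s', y', rfl⟩ := b3 w hw
    have e : ∀ (s s' : ι → ℂ) (y : ℂ) (p u : V ch.M), c • (s • p + y • u) + s' • p =
        (c • s + s') • p + (c * y) • u := fun s s' y p u => by
      rw [smul_add, add_smul, smul_assoc, mul_smul, add_right_comm]
    obtain ⟨t, rfl⟩ := mem_sdψ_N.1 hn
    rw [e, bet, bet, (z x hx).pr_smul a1 b1, (z x hx).pr_smul a1 b1]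
    ring
  · obtain ⟨u, hu⟩ := isUnit_dupF hs
    have e : crv (actF F s x).2 = gV (gU u) '' crv x.2 := Set.ext fun c => by
      simp only [mem_crv_actF hs, mem_image, gV_gU, hu]
      rfl
    have k := (z x hx).pr_act (gU u) ((Cv.isUnit_iff.1 (isUnit_dupF hs)).2.2 a)
      ((Cv.isUnit_iff.1 (isUnit_dupF hs)).2.2 b) v w
    simp only [gV_gU, hu] at k
    rw [bet, e]
    exact k
  · obtain ⟨v, w, Φ, h1, h2, h3, h4, -⟩ := exists_frm (S := S) h hg hab hT hc hx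
    exact ⟨v, w, h1, h2, h3.continuousAt.continuousWithinAt.congr_of_eventuallyEq
      (eventually_nhdsWithin_iff.2 (h4.mono fun _ c k => (c k).1)) (h4.self_of_nhds hx).1⟩

/-- **`ψ_a + ψ_b` is the class of a divisor that is reduced along the curves with one node.** -/
theorem exists_div (hV : ∀ x ∈ T, ∀ᶠ y in 𝓝 x, y ∈ ch.baseF ν κ B → y.1 = x.1 → y.2.X = x.2.X →
    y ∈ T) [IsAct (actF F) T] (ho : Orb.Orb (ch.AF ν κ S)ˣ (Holo.Sp (actF F) T)) :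
    ∃ t : Coch (Quo (actF F) T), supp (δ t) = ∅ ∧ IsDeg 2 t ∧
      hcls t = hcls (psiF a) + hcls (psiF b) ∧
      (∀ x : Holo.Sp (actF F) T, x.mk ∈ supp t → SpN a b x.val) ∧
      ∀ x : Holo.Sp (actF F) T, ∃ Φ, AnalyticAt ℂ Φ x.val ∧
        LocDiv (pull Holo.Sp.mk t) (fun y => Φ y.val) x ∧
        (∀ᶠ y in 𝓝 x.val, y ∈ T → (Φ y = 0 ↔ SpN a b y)) ∧ (On ch.o (crv x.val.2) →
          SpN a b x.val → ∃ γ, Arc T x.val γ ∧ deriv (fun ε => Φ (γ ε)) 0 ≠ 0) := by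
  have o := Cuts.okψ ⟨h.a_ne, h.cut⟩ (S := S) (F := F) fun x hx => (hT hx).2.1
  obtain ⟨t, h1, h2, h3, h4, h5⟩ := (prg h hg hab hT hc).exists_div ho (o a) (o b)
  refine ⟨t, h1, h2, ?_, fun x hx => ?_, fun x => ?_⟩
  · rw [h3, psiF_eq, psiF_eq, hcls_neg ((o a).cocycle ho), hcls_neg ((o b).cocycle ho)]
  all_goals obtain ⟨v, w, Φ, k1, k2, k3, k4, k5⟩ := exists_frm (S := S) h hg hab hT hc x.val_mem
  · have k := k4.self_of_nhds x.val_mem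
    exact k.2.1 (k.1.symm.trans (h4 x hx _ (k1.ev.self_of_nhdsWithin x.val_mem).2 _
      (k2.ev.self_of_nhdsWithin x.val_mem).2))
  · refine ⟨Φ, k3, (h5 x v w k1 k2).congr ((Holo.Sp.continuous_val.tendsto x |>.eventually k4).mono
      fun y c => (c y.val_mem).1), k4.mono fun _ c k => (c k).2, fun q ⟨c, c1, c2⟩ => ?_⟩
    obtain ⟨τ, t1, t2⟩ := h.exists_tauF hT x.val_mem (hV _ x.val_mem) (c := fun _ : Unit => c)
      (fun _ => c1) fun _ _ _ => rfl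
    obtain ⟨γ, g1, -, g2⟩ := t2 1
    exact ⟨γ, g1, k5 c _ q (t1 ()) c2 γ g1 ((g2 ()).trans_ne one_ne_zero)⟩

end Vale.Agent.P269.Trr
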