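import Vale.Agent.P287Q.Trr.Abs
import Vale.Agent.P287Q.Trr.Bet
import Vale.Agent.P287Q.Trr.Lab
import Vale.Agent.P287Q.Trr.St
import Vale.Agent.P287Q.G.LG.HNC

/-!
# The relation `ψ_a + ψ_b = D(a | b)` in genus zero
-/

set_option linter.unusedSectionVars false
set_option linter.style.haveILetI false

namespace Vale.Agent.P269

open P291Z Set Function Topology Filter Base Holo Module Trr

variable {S Λ R J K ι ν κ : Type} [Fintype S] [Fintype Λ] [Fintype R] [Fintype J] [Fintype K]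
  [Fintype ι] [DecidableEq ι] [Fintype ν] [Fintype κ]

namespace Ch

variable {ch : Ch ι J} {n : Nm ι J} {F : Fam S Λ R J K} {e : K → ι → ℕ} {ℓ : R → ι → ℤ}
  {P U : Set (ch.WF ν κ Λ)} {V : Set ((ch.re n).WF ν (κ ⊕ Unit) Λ)} {N₀ N : ℕ} {a b : Mk ν κ}

theorem map_psi {W : Wt S Λ R J} {Z Z' : Set (ch.WF ν κ Λ)} [IsAct (actF W) Z] [IsAct (actF W) Z']
    (hc : ch.Cuts) (ho : Orb.Orb (ch.AF ν κ S)ˣ (Holo.Sp (actF W) Z))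
    (ho' : Orb.Orb (ch.AF ν κ S)ˣ (Holo.Sp (actF W) Z')) (hZ : ∀ x ∈ Z, x.2 ∈ ch.base _)
    (e : Z' ⊆ Z) (a b : Mk ν κ) :
    H.map (EqM.incl (act := actF W) e).map (hcls (psiF a) + hcls (psiF b)) =
      hcls (psiF a) + hcls (psiF b) := by
  have k := fun a => psiF_same ho hc hZ ho' (fun x hx => hZ x (e hx)) (EqM.incl e)
    (fun _ _ => ⟨rfl, rfl⟩) a
  rw [map_add, H.map_hcls _ (psiF_cocycle ho hc hZ a), H.map_hcls _ (psiF_cocycle ho hc hZ b),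
    ← k, ← k]

theorem ivt_two {W : Wt S Λ R J} (Z : Set (ch.WF ν κ Λ)) [IsAct (actF W) Z] :
    Ivt (actF W) (Z ∩ {x | ¬On ch.o (crv x.2)}) :=
  Ivt.diff (act := actF W) (S := Z) (M := {x : ch.WF ν κ Λ | On ch.o (crv x.2)})
    fun _ hs _ k => On.actF hs k

namespace NC

variable {K₀} (h : ch.NC n F e K₀ ℓ P V N₀ N) (hU : IsOpen U) (hP : ch.adm ν κ F ∩ U ⊆ P)
include h hU hP

theorem mem_img (hl : ch.Lat F.toWt ℓ) {x : ch.WF ν κ Λ} (hx : x ∈ ch.adm ν κ F ∩ U)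
    (hc : IsConnected (crv x.2)) :
    x ∈ Prod.fst '' (ch.OL n F (ch.adm ν κ F ∩ U) ∩ spL ℓ a b) ↔ SpN a b x := by
  refine ⟨?_, fun ⟨c, c1, c2⟩ => ?_⟩
  · rintro ⟨z, hz, rfl⟩
    exact ⟨_, (hz.1.1.1.1.ηN_mem hz.1.2).2,
      ((hz.1.1.1.1.sp_iff_spL hl (OL_baseF hz.1)).2 (.inl hz.2)).2⟩
  · obtain ⟨z, hz, k⟩ := h.cut (x, c) ⟨⟨⟨hx.1, hP hx⟩, MarkP.mem_of_isNode c1⟩, c1⟩
    obtain rfl : z.1 = x := congrArg Prod.fst k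
    obtain rfl : (ηN z).2 = c := congrArg Prod.snd k
    have hz' : z ∈ ch.OL n F (ch.adm ν κ F ∩ U) := ⟨hz.1, hx⟩
    exact ((hz.1.1.1.sp_iff_spL hl (OL_baseF hz')).1 ⟨hc, c2⟩).elim (fun k => ⟨z, ⟨hz', k⟩, rfl⟩)
      fun k => ⟨swp z, ⟨OL.swp hz', k⟩, rfl⟩

variable [IsAct (actF F.toWt) (ch.adm ν κ F ∩ U)]
  [IsAct (actG F.toWt : ch.AG n ν κ Unit S → _) (ch.OL n F (ch.adm ν κ F ∩ U))]
  (ho : Orb.Orb (ch.AF ν κ S)ˣ (Holo.Sp (actF F.toWt) (ch.adm ν κ F ∩ U)))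

theorem str : Str (actF F.toWt) (ch.adm ν κ F ∩ U) (N₀ - finrank ℂ (ch.AF ν κ S)) :=
  ⟨IsAct.mem, fun x => (h.mf hU hP x x.2).2, fun x hx => closure_mono (fun _ a => And.intro a.1 a.2.1)
    (h.pr.den' (lev_adm h.gh.std.inv) hU hP x hx)⟩

include ho

theorem str_OL : Str (actG F.toWt : ch.AG n ν κ Unit S → _) (ch.OL n F (ch.adm ν κ F ∩ U))
    (N₀ - finrank ℂ (ch.AF ν κ S) - 1) :=
  (h.dbl hU hP ho).str (h.str_nod hU hP ho) (h.mf_OL hU hP ho)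

theorem isPr_fst {Y : Set (ch.WG n ν κ Unit Λ)}
    [IsAct (actG F.toWt : ch.AG n ν κ Unit S → _) Y] (hY : Y ⊆ ch.OL n F (ch.adm ν κ F ∩ U))
    (c : Clo Y (ch.OL n F (ch.adm ν κ F ∩ U)))
    (hf : EqM (actG F.toWt : ch.AG n ν κ Unit S → _) (actF F.toWt) Y (ch.adm ν κ F ∩ U)
      (fun a => a.1) Prod.fst) : IsPr hf.map := by
  have hc := h.gh.std.cuts
  have hb := ((ver_adm h.abs).opn ⟨U, hU, rfl⟩).base
  rw [show ⇑hf.map = (prC _ _ ∘ inN _ _) ∘ (h.dbl hU hP ho).toEqM.map ∘ Quo.incl _ hY from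
    funext fun z => Quot.inductionOn z fun _ => rfl]
  exact (hc.isPr_prN hb ho).comp (((h.dbl hU hP ho).isPr
    (hc.orb_nod hb ho (pcy_self (h.mf hU hP)).lc)).comp
      (.of_isClosedEmbedding (Quo.isClosedEmbedding_incl hY c)))

variable (hl : ch.Lat F.toWt ℓ) {Y : Set (ch.WG n ν κ Unit Λ)}
  (hY : Y = ch.OL n F (ch.adm ν κ F ∩ U) ∩ spL ℓ a b)
include hl hY

theorem sec {z : ch.WG n ν κ Unit Λ} (hz : z ∈ Y) : ∃ σ, AnalyticAt ℂ σ (ηN z) ∧ σ (ηN z) = z ∧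
    ∀ᶠ y in 𝓝 (ηN z), y ∈ nod (ch.adm ν κ F ∩ U) → σ y ∈ Y ∧ (σ y).1 = y.1 := by
  subst hY
  obtain ⟨U', u1, u2⟩ := spL_opn (a := a) (b := b) hl h.gh.num.cuts'
    (OL_baseF (n := n) (F := F) (O := ch.adm ν κ F ∩ U))
  obtain ⟨σ, s1, s2, s3⟩ := (h.dbl hU hP ho).sec z hz.1
  have t : Tendsto σ (𝓝 (ηN z)) (𝓝 z) := s1.continuousAt.tendsto.trans (by rw [s2])
  refine ⟨σ, s1, s2, ((eventually_nhdsWithin_iff.1 s3).and (t.eventually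
    (u1.mem_nhds (u2.le hz).2))).mono fun y k hy => ?_⟩
  exact ⟨u2.ge ⟨(k.1 hy).1, k.2⟩, congrArg Prod.fst (k.1 hy).2⟩

theorem fre : Y ⊆ closure {z | z ∈ Y ∧ Fre (actF F.toWt) z.1} := fun z hz => by
  obtain ⟨σ, s1, s2, s3⟩ := h.sec hU hP ho hl hY hz
  have m := (hY.le hz).1
  have k := m.1.1.1.ηN_mem m.2
  have r : Tendsto (fun y : ch.WF ν κ Λ => ((y, (ηN z).2) : ch.WC ν κ Λ)) (𝓝 z.1) (𝓝 (ηN z)) :=
    (continuous_id.prodMk continuous_const).tendsto _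
  have t : Tendsto σ (𝓝 (ηN z)) (𝓝 z) := s1.continuousAt.tendsto.trans (by rw [s2])
  refine mem_closure_of_frequently_of_tendsto (((mem_closure_iff_frequently.1
    (h.pr.den' (lev_adm h.gh.std.inv) hU hP _ m.2)).and_eventually (r.eventually s3)).mono
      fun y q => ?_) (t.comp r)
  obtain ⟨⟨q1, q2, q3⟩, q4⟩ := q
  have q' := q4 ⟨⟨q1, q3.ge k.1.2⟩, (congrArg (IsNode ch.o · (ηN z).2) q3).mpr k.2⟩
  exact ⟨q'.1, (congrArg (Fre (actF F.toWt)) q'.2).mpr q2⟩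

theorem smp {z : ch.WG n ν κ Unit Λ} (hz : z ∈ Y) (h1 : On ch.o (crv z.1.2))
    {Φ : ch.WF ν κ Λ → ℂ} (h2 : ∀ᶠ y in 𝓝 z.1, y ∈ ch.adm ν κ F ∩ U → (Φ y = 0 ↔ SpN a b y)) :
    ∃ σ : ch.WF ν κ Λ → ch.WG n ν κ Unit Λ, AnalyticAt ℂ σ z.1 ∧
      (Fre (actF F.toWt) z.1 → Fre (actG F.toWt : ch.AG n ν κ Unit S → _) (σ z.1)) ∧
      (∀ᶠ y in 𝓝 z.1, y ∈ ch.adm ν κ F ∩ U → Φ y = 0 → σ y ∈ Y ∧ (σ y).1 = y) ∧
      ∀ w ∈ Y, w.1 = z.1 → ∃ g : ch.AG n ν κ Unit S, IsUnit g ∧ actG F.toWt g w = σ z.1 := by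
  have hv := (ver_adm h.abs).opn ⟨U, hU, rfl⟩
  have db := h.dbl hU hP ho
  obtain ⟨σ, s1, s2, s3⟩ := h.sec hU hP ho hl hY hz
  subst hY
  have nd := hz.1.1.1.1.ηN_mem hz.1.2
  obtain ⟨m, c, τ, r, r1, -, -, r2, r3⟩ := exists_taus h.gh.num.num hv.1 hv.2 hz.1.2
  obtain ⟨i, s, hs, es⟩ := r1.ex _ nd.1.2 nd.2
  have an : AnalyticAt ℂ (fun y => ((y, s • r i y) : ch.WC ν κ Λ)) z.1 :=
    analyticAt_id.prod (analyticAt_pi_iff.2 fun j => (analyticAt_pi_iff.1 (r2 i).1 j).const_smul)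
  have ev : (z.1, s • r i z.1) = ηN z := Prod.ext rfl (by rw [(r2 i).2, ← es])
  have e2 : σ (z.1, s • r i z.1) = z := (congrArg σ ev).trans s2
  have t : Tendsto (fun y => ((y, s • r i y) : ch.WC ν κ Λ)) (𝓝 z.1) (𝓝 (ηN z)) :=
    an.continuousAt.tendsto.trans (by rw [ev])
  refine ⟨fun y => σ (y, s • r i y), s1.comp_of_eq an ev, fun q => ?_,
    ((h2.and r3).and (t.eventually s3)).mono fun y q hy hΦ => ?_, fun w hw ew => ?_⟩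
  · exact (congrArg (Fre _) e2).mpr (db.fre hz.1 (fre_actC nd.1.2 q))
  · obtain ⟨c', c1, -⟩ := (q.1.1 hy).1 hΦ
    obtain ⟨j, j1, -⟩ := (q.1.2 hy).2 c' c1
    obtain rfl := r1.inj j i (h1 _ _ (r1.prop j) (r1.prop i))
    have k1 := ((q.1.2 hy).1 j j1).smul hs ((hv.base y hy).2.2.1.cone s hs)
    exact q.2 ⟨⟨hy, MarkP.mem_of_isNode k1⟩, k1⟩
  · obtain ⟨u, hu, eu⟩ := h1 _ _ ((congrArg (fun x : ch.WF ν κ Λ => IsNode ch.o (crv x.2) (ηN w).2)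
      ew).mp (hw.1.1.1.1.ηN_mem hw.1.2).2) nd.2
    obtain ⟨g, hg, q⟩ := db.fib' hz.1 hw.1 (b := (1, u)) (isUnitU_iff.2 ⟨isUnit_one, hu⟩)
      (Prod.ext ((actF_one _).trans ew) eu.symm)
    exact ⟨g, hg, (q.resolve_right fun q => spL_not_swp hl hz.1.1.1.1.mem' hz.2
      (q ▸ actG_mem_spL hw.1.1.1.1.mem' hg hw.2)).trans e2.symm⟩

/-- **the relation on a smooth family of connected curves** -/
theorem key (hg : ch.g = 0) (hab : a ≠ b) (hc : ∀ x ∈ ch.adm ν κ F ∩ U, IsConnected (crv x.2))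
    [IsAct (actG F.toWt : ch.AG n ν κ Unit S → _) Y]
    (hf : EqM (actG F.toWt : ch.AG n ν κ Unit S → _) (actF F.toWt) Y (ch.adm ν κ F ∩ U)
      (fun a => a.1) Prod.fst) : IsPr hf.map ∧
    cap (hcls (psiF a) + hcls (psiF b))
      (fnd (actF F.toWt) (ch.adm ν κ F ∩ U) (N₀ - finrank ℂ (ch.AF ν κ S))) =
        push hf.map (fnd (actG F.toWt) Y (N₀ - finrank ℂ (ch.AF ν κ S) - 1)) := by
  have hn := h.gh.num
  have hv := (ver_adm h.abs).opn ⟨U, hU, rfl⟩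
  have hm := h.mf hU hP
  have e1 : Y ⊆ ch.OL n F (ch.adm ν κ F ∩ U) := hY.le.trans inter_subset_left
  have hp := h.isPr_fst hU hP ho e1 (hY ▸ spL_clo hl hn.cuts' OL_baseF) hf
  obtain ⟨U', u1, u2⟩ := spL_opn (a := a) (b := b) hl hn.cuts'
    (OL_baseF (n := n) (F := F) (O := ch.adm ν κ F ∩ U))
  rw [← hY] at u2
  have c' := (Dbl.cyc (h.str_OL hU hP ho)).inter u1 (u2 ▸ IsAct.mem)
  rw [← u2] at c'
  have im := fun x hx => h.mem_img (a := a) (b := b) hU hP hl hx (hc x hx)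
  rw [← hY] at im
  obtain ⟨t, t1, t2, t3, t4, t5⟩ := exists_div (F := F.toWt) hn.num hg hab hv.1 hc hv.2 ho
  rw [← t3]
  refine ⟨hp, cap_div' (B := {x | ¬On ch.o (crv x.2)}) hf
    (fun s hs => ⟨(s, 1), AP.isUnit_iff.2 ⟨hs, isUnit_one⟩, rfl⟩)
    (fun z _ => ⟨_, analyticAt_fst, .of_forall fun _ _ => rfl⟩) ho (h.orb hU hP e1 c'.lc)
    (fun ⟨z, hz⟩ => hn.num.one_le hv ho (pcy_self hm).lc hm ((e1 hz).1.1.1.ηN_mem (e1 hz).2))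
    (Dbl.cyc (h.str hU hP)) c' hp (h.fre hU hP ho hl hY) (clo_two hn.num hv.1 hv.2)
    (ivt_two _)
    (fun k => dimLt_two hn.num hv.1 hv.2 fun x hx => ?_) t1 t2 (fun x hx => ?_) fun x hx k => ?_⟩
  · rw [add_assoc, Nat.sub_add_cancel k]
    exact hm x hx
  · obtain ⟨x, rfl⟩ := Holo.Sp.surjective_mk x
    obtain ⟨z, hz, k⟩ := (im _ x.val_mem).2 (t4 x hx)
    exact ⟨(Holo.Sp.of _ z hz).mk, congrArg Holo.Sp.mk (Holo.Sp.ext k)⟩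
  have h1 : On ch.o (crv x.val.2) := not_not.1 k
  obtain ⟨Φ, f1, f2, f3, f4⟩ := t5 x
  refine ⟨Φ, ⟨f1, f4 h1 ((im _ x.val_mem).1 hx), f3.mono fun y q hy =>
    have m := hf.maps.image_subset hy; (q m).2 ((im y m).1 hy), ?_⟩, f2⟩
  obtain ⟨z, hz, ez⟩ := hx
  rw [← ez] at h1 f3 ⊢
  exact h.smp hU hP ho hl hY hz h1 f3

end NC

/-- **the relation in a chart** -/
theorem NC.trr {K₀} (h : ch.NC n F e K₀ ℓ P V N₀ N) (hl : ch.Lat F.toWt ℓ) (hg : ch.g = 0)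
    (hab : a ≠ b) (hU : Pr F (P ∩ U)) {T₀ : Set (ch.WF ν κ Λ)} (e₀ : T₀ = ch.adm ν κ F)
    {T : Set ((ch.re n).WF ν (κ ⊕ Unit) Λ)} (hT : T ⊆ (ch.re n).adm ν (κ ⊕ Unit) F)
    (hT' : ∀ O ⊆ U, Zf F T ∩ Prod.fst ⁻¹' O = ch.OL n F O)
    {Ψ : Quo (actG F.toWt : ch.AG n ν κ Unit S → _) (ZL F T) → ModS F T₀}
    (hΨ : ∀ z : ZL F T, ∃ k, Ψ (Quo.mk _ z) = Quo.mk _ ⟨z.1.1, k⟩) {p : Set (ModS F T₀)}
    (h1 : ∀ z, Quo.mk _ z ∈ p ↔ z.1 ∈ ch.cnn ν κ Λ)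
    {q : Set (Quo (actG F.toWt : ch.AG n ν κ Unit S → _) (ZL F T))}
    (h2 : ∀ z, Quo.mk _ z ∈ q ↔ z.1 ∈ spL ℓ a b) {v}
    (hv : (ch.kdL ν κ Unit n F e).IsV (actG F.toWt) (ZL F T) (Zf F T) v) :
    cap (hcls (ind p) * (hcls (psiF a) + hcls (psiF b))) (virF F e T₀) =
      push Ψ (cap (hcls (ind q)) v) := by
  subst e₀
  have hs := h.gh.std
  have hn := h.gh.num
  have dm := hs.dom_lev hU (lev_adm hs.inv) (pcy_self h.mfd).lc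
  obtain ⟨U₀, u₀, e₀⟩ := dm.opn
  have p₀ : ch.adm ν κ F ∩ U₀ ⊆ P := fun _ a => (e₀.ge a).1.2.1
  have eO := hT' _ fun _ a => (e₀.ge a).1.2.2
  rw [e₀] at dm
  have := dm.isAct
  obtain ⟨_, g⟩ := hs.gd subset_rfl dm
  have hb := ((ver_adm h.abs).opn ⟨U₀, u₀, rfl⟩).base
  obtain ⟨U₁, u₁, e₁⟩ := cnn_opn hs.cuts hb
  have i₁ := ivt_cnn hb g.ivt
  have k₁ := cnn_clo hs.cuts hb
  have m₁ : ∀ x, x ∈ ch.adm ν κ F ∩ (U₀ ∩ U₁) ↔ x ∈ ch.adm ν κ F ∩ U₀ ∧ x ∈ ch.cnn ν κ Λ :=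
    Set.ext_iff.1 ((inter_assoc _ _ _).symm.trans e₁.symm)
  rw [e₁, inter_assoc] at i₁ k₁
  have s₁ : ch.adm ν κ F ∩ (U₀ ∩ U₁) ⊆ ch.adm ν κ F ∩ U₀ := fun x a => ((m₁ x).1 a).1
  have := IsAct.mono isActF_univ (subset_univ _) i₁
  have iO := ivt_OL (n := n) hs.inv g.ivt
  have := IsAct.mono isAct_actG (subset_univ _) iO
  have := IsAct.mono isAct_actG (subset_univ _) (ivt_OL (n := n) hs.inv i₁)
  have := IsAct.mono isAct_actG (subset_univ _) (ivt_spL (a := a) (b := b) hl OL_baseF iO)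
  have c := Dbl.cyc (h.str u₀ p₀)
  have o₁ := orb_mono dm.orb s₁ (pcy_self (h.mf (u₀.inter u₁) (s₁.trans p₀))).lc
  have c' := h.str_OL u₀ p₀ dm.orb
  have eY : ch.OL n F (ch.adm ν κ F ∩ U₀) ∩ spL ℓ a b =
      ch.OL n F (ch.adm ν κ F ∩ (U₀ ∩ U₁)) ∩ spL ℓ a b := Set.ext fun z =>
    ⟨fun k => ⟨⟨k.1.1, (m₁ _).2 ⟨k.1.2,
      ((k.1.1.1.1.sp_iff_spL hl (OL_baseF k.1)).2 (.inl k.2)).1⟩⟩, k.2⟩,
      fun k => ⟨⟨k.1.1, s₁ k.1.2⟩, k.2⟩⟩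
  have f₀ := (eqM_fst (Wg := F.toWt)).mono (subset_univ _)
    (fun _ k => k.2 : MapsTo _ (ch.OL n F (ch.adm ν κ F ∩ U₀)) (ch.adm ν κ F ∩ U₀))
  have f₁ := f₀.mono inter_subset_left (fun _ k => (eY.le k).1.2 : MapsTo _
    (_ ∩ spL ℓ a b) (ch.adm ν κ F ∩ (U₀ ∩ U₁)))
  obtain ⟨q₁, q₂⟩ := h.key (u₀.inter u₁) (s₁.trans p₀) o₁ hl eY hg hab
    (fun x k => ((m₁ x).1 k).2) f₁
  rw [← map_psi hs.cuts dm.orb o₁ hb s₁] at q₂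
  have ad := fun z (k : z ∈ Zf F T) => Zb.adm hn hs.inv hT k.1
  have eZ : ZL F T = ch.OL n F (ch.adm ν κ F ∩ U₀) ∩
      Prod.fst ⁻¹' (ch.solF ν κ F ∩ ch.adm ν κ F) := Set.ext fun z =>
    ⟨fun k => ⟨eO.le ⟨k.1, dm.sub ⟨k.2, ad z k.1⟩⟩, k.2, ad z k.1⟩,
      fun k => ⟨(eO.ge k.1).1, k.2.1⟩⟩
  obtain ⟨g', r⟩ := transfer g f₀ (h.orb u₀ p₀ subset_rfl (Dbl.cyc c').lc)
    (h.isPr_fst u₀ p₀ dm.orb subset_rfl ⟨univ, isClosed_univ, (inter_univ _).symm⟩ f₀) eZ c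
    (Dbl.cyc c') s₁ ⟨U₁, u₁, (inter_assoc _ _ _).symm⟩ k₁ inter_subset_left
    (spL_opn hl hn.cuts' OL_baseF) (spL_clo hl hn.cuts' OL_baseF) f₁ q₁ q₂ hΨ
    (fun z => (h1 z).trans ((m₁ _).trans (and_iff_right (dm.sub z.2))).symm)
    fun z => (h2 z).trans (and_iff_right (eZ.le z.2).1).symm
  have o' : ∃ U', IsOpen U' ∧ ch.OL n F (ch.adm ν κ F ∩ U₀) = Zf F T ∩ U' :=
    ⟨_, u₀.preimage continuous_fst, eO.symm.trans (Set.ext fun z =>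
      ⟨fun k => ⟨k.1, k.2.2⟩, fun k => ⟨k.1, ad z k.1, k.2⟩⟩)⟩
  have := g.isActZ
  rw [map_psi hs.cuts dm.orb g.orbZ hb g.dom.sub] at r
  rw [(hv.isW g' o' c').eq_vr g' o' (h.mf_OL u₀ p₀ dm.orb),
    Vd.virF_vr ⟨subset_rfl, (lev_adm hs.inv).inv, dm, c⟩ hs]
  exact r

end Ch

theorem Fam.GNc.trr [DecidableEq R] {F : Fam S Λ R J K} {k D : ℕ} {g g' : ℤ} {d : R → ℤ} {a b : ν}
    {Ψ Φ} (G : F.GNc (ν := ν) (k := k) (D := D) (g := g) (g' := g') (d := d) Ψ Φ) (h : F.Nice 0)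
    (hA : F.Abs) (hk : F.Big k) (hD : F.BigD k D) (hab : a ≠ b) (hg : g = g' + 1) (h0 : g = 0) {v}
    (hv : (F.kdL ν k D g g' d).IsV (F.acL ν k D g g' d) (F.SL ν k D g g' d)
      (F.OL ν k D g g' d) v) :
    cap (hcls (ind (F.sel fun m => m.Conn)) * (hcls (Ch.psiF (.inl a)) + hcls (Ch.psiF (.inl b))))
      (F.vir (Fin 0) k D g d 0) = push Ψ (cap (H.map Φ (hcls (ind (F.sel (AM.Sep (.inl (.inl a))
        (.inl (.inl b)) (Nd.mq () false) (Nd.mq () true)))))) v) := by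
  subst hg
  obtain ⟨_, hR⟩ := h.reg
  obtain ⟨_, hB⟩ := h.sm
  have hF := h.toGood.toInv
  obtain ⟨P, V, N₀, N, c⟩ := h.toGood.exists_nc (ν := ν) (κ := Fin 0) hA hR hB hk hD g' d
  rw [map_ind Φ (Fam.isClopen_sel_of_same hD fun _ _ e => e.sep)]
  exact c.trr (Fam.chart_lat hD) h0 (mt Sum.inl.inj hab)
    (NdL.pr_inter c.pr Fam.isOpen_posG Fam.ivt_posG (Fam.sol_posG hF hk hD)) (hA.cyc_eq hF)
    inter_subset_left (fun _ => Fam.OL_eq hk hD) G.fst (Fam.mk_mem_conn hD)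
    (fun z => G.mem_sep hF hk hD rfl z a b) hv

/-- **The topological recursion relation** on the level of classes. -/
theorem St.trr : St.Trr := fun _ _ _ _ _ _ _ _ h hA hk hD hab G _ hv =>
  G.trr h hA hk hD hab rfl rfl hv

end Vale.Agent.P269
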