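import Vale.Agent.P287Q.Trr.Div
import Vale.Agent.P269.Glu.VrA

/-!
# Open and closed parts; transfer of a relation to the virtual classes
-/

set_option linter.unusedSectionVars false
set_option linter.style.haveILetI false

namespace Vale.Agent.P269.Trr

open Set Function Topology Filter Module Vale.Agent.P291Z Vale.Agent.P269.Orb Holo Ch Ch.KD

section top

variable {X Y : Type}

theorem ind_fn (B : Set Y) : ind B = fn (B.indicator 1) := Coch.ext fun l => by
  classical
  change (if ∃ y ∈ B, l = [y] then (1 : ℂ) else 0) = _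
  match l with
  | [] => exact if_neg (by simp)
  | [x] => simp [fn_val, indicator_apply]
  | _ :: _ :: _ => exact if_neg (by simp)

theorem pull_ind (f : X → Y) (B : Set Y) : pull f (ind B) = ind (f ⁻¹' B) := by
  rw [ind_fn, ind_fn, pull_fn]
  rfl

variable [TopologicalSpace X] [TopologicalSpace Y]

theorem cocycle_ind {B : Set Y} (hB : IsClopen B) : supp (δ (ind B)) = ∅ := by
  rw [ind_fn]
  exact Orb.cocycle_fn.2 ((LocallyConstant.const Y (1 : ℂ)).indicator hB).isLocallyConstant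

theorem map_ind (f : C(X, Y)) {B : Set Y} (hB : IsClopen B) :
    H.map f (hcls (ind B)) = hcls (ind (f ⁻¹' B)) := by
  rw [H.map_hcls _ (cocycle_ind hB), pull_ind]

theorem push_res [Nice X] [Nice Y] {j : X → Y} (h : IsOpenEmbedding j) (h' : IsClosedEmbedding j)
    (β : BM Y) : push j (res j β) = cap (hcls (ind (range j))) β := by
  have c := cocycle_ind ⟨h'.isClosed_range, h.isOpen_range⟩
  have s : supp (ind (range j)) ⊆ range j := fun y hy => by_contra fun k => mem_Van.1 (by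
    rw [ind_fn, fn_van]
    filter_upwards [h'.isClosed_range.isOpen_compl.mem_nhds k] with z a using indicator_of_notMem a _) hy
  have e := res_gys h' IsClosedEmbedding.id h IsOpenEmbedding.id (fun _ => rfl) (by simp) c s β
  have e' := res_push_homeo IsHomeomorph.id (gys j (ind (range j)) β)
  rw [push_id'] at e'
  rw [e', pull_ind, preimage_range, ind_fn univ, indicator_univ, show fn (1 : X → ℂ) = 1 from fn_one,
    gys_id_eq_cap cocycle_one, hcls_one, cap_one] at e
  rw [← e, ← gys_id_eq_cap c, ← push_gys h' IsClosedEmbedding.id c s]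
  rfl

end top

variable {A A' W W' P : Type} [NormedRing A] [NormedAlgebra ℂ A] [NormedAddCommGroup W]
  [NormedSpace ℂ W] [NormedRing A'] [NormedAlgebra ℂ A'] [NormedAddCommGroup W'] [NormedSpace ℂ W']
  [FiniteDimensional ℂ A] [FiniteDimensional ℂ W] [FiniteDimensional ℂ A'] [FiniteDimensional ℂ W']
  [AddCommGroup P] [Module ℂ P] [TopologicalSpace P] [IsTopologicalAddGroup P] [ContinuousSMul ℂ P]
  [T2Space P] {act : A → W → W} {act' : A' → W' → W'} {O O₁ Z M B : Set W} {O' N Z' M' : Set W'}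
  {d d' n r : ℕ} {θ : A' → A} {f : W' → W}

/-- the part of the fundamental class on an open and closed subset -/
theorem cap_part [IsAct act O] [IsAct act O₁] (ho : Orb Aˣ (Holo.Sp act O)) (c : Cyc act O M d)
    (e : O₁ ⊆ O) (o : ∃ U, IsOpen U ∧ O₁ = O ∩ U) (k : Clo O₁ O) (x : H (Quo act O)) :
    cap (hcls (ind (range (Quo.incl act e))) * x) (fnd act O d) =
      push (Quo.incl act e) (cap (H.map (EqM.incl e).map x) (fnd act O₁ d)) := by
  haveI := nice_of_orb ho
  haveI := nice_of_orb (orb_mono ho e (let ⟨_, a, b⟩ := o; b ▸ c.lc.inter a.isLocallyClosed))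
  have j := Quo.isOpenEmbedding_incl (act := act) e o
  rw [cap_mul, ← push_res j (Quo.isClosedEmbedding_incl e k), ← c.res_fnd ho e o]
  exact congrArg _ (res_cap (j := (EqM.incl (act := act) e).map) j _ _)

/-- **transfer** of a relation between open and closed parts to the virtual classes -/
theorem transfer {D : KD A W P} (g : D.Gd act Z O n r) [IsAct act O] [IsAct act' O']
    [IsAct act O₁] [IsAct act' N] (hf : EqM act' act O' O θ f) (ho' : Orb A'ˣ (Holo.Sp act' O'))
    (hp : IsPr hf.map) (hZ : Z' = O' ∩ f ⁻¹' Z) (c : Cyc act O M d) (c' : Cyc act' O' M' d')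
    (e : O₁ ⊆ O) (o : ∃ U, IsOpen U ∧ O₁ = O ∩ U) (k : Clo O₁ O) (e' : N ⊆ O')
    (o' : ∃ U, IsOpen U ∧ N = O' ∩ U) (k' : Clo N O') (hN : EqM act' act N O₁ θ f)
    (hp' : IsPr hN.map) {x : H (Quo act O)}
    (key : cap (H.map (EqM.incl e).map x) (fnd act O₁ d) = push hN.map (fnd act' N d'))
    {Ψ : Quo act' Z' → Quo act Z} (hΨ : ∀ z : Z', ∃ h, Ψ (Quo.mk _ z) = Quo.mk _ ⟨f z, h⟩)
    {p : Set (Quo act Z)} (h1 : ∀ z : Z, Quo.mk act z ∈ p ↔ z.1 ∈ O₁) {q : Set (Quo act' Z')}
    (h2 : ∀ z : Z', Quo.mk act' z ∈ q ↔ z.1 ∈ N) :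
    ∃ _ : (D.pb θ f).Gd act' Z' O' n r,
      cap (hcls (ind p) * H.map (EqM.incl g.dom.sub).map x) (D.vr act Z O (fnd act O d)) =
        push Ψ (cap (hcls (ind q)) ((D.pb θ f).vr act' Z' O' (fnd act' O' d'))) := by
  have g' : (D.pb θ f).Gd act' Z' O' n r :=
    ⟨⟨hZ.le.trans inter_subset_left, ⟨univ, isOpen_univ, (inter_univ _).symm⟩, ‹_›, ho',
      fun x hx => (g.dom.zero _ (hf.maps hx)).trans (hZ ▸ (and_iff_right hx).symm)⟩, g.ok.pb' hf⟩
  have m : MapsTo f Z' Z := fun z hz => (hZ.le hz).2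
  have j := Quo.isClosedEmbedding_incl (act := act) e k
  have j' := Quo.isClosedEmbedding_incl (act := act') e' k'
  have l : IsClopen _ := ⟨j.isClosed_range, (Quo.isOpenEmbedding_incl e o).isOpen_range⟩
  have l' : IsClopen _ := ⟨j'.isClosed_range, (Quo.isOpenEmbedding_incl e' o').isOpen_range⟩
  obtain rfl : p = Quo.incl act g.dom.sub ⁻¹' range (Quo.incl act e) := Set.ext fun z =>
    Quot.inductionOn z fun z => (h1 z).trans
      (Quo.mk_mem_range e (x := .of act _ (g.dom.sub z.2))).symm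
  obtain rfl : q = Quo.incl act' g'.dom.sub ⁻¹' range (Quo.incl act' e') := Set.ext fun z =>
    Quot.inductionOn z fun z => (h2 z).trans
      (Quo.mk_mem_range e' (x := .of act' _ (g'.dom.sub z.2))).symm
  obtain rfl := (hf.mono g'.dom.sub m).eq_map fun z => (hΨ z).2
  refine ⟨g', ?_⟩
  haveI := g.nice
  haveI := g.niceZ
  haveI := g'.nice
  haveI := nice_of_orb (orb_mono g.dom.orb e
    (let ⟨_, a, b⟩ := o; b ▸ c.lc.inter a.isLocallyClosed))
  haveI := nice_of_orb (orb_mono ho' e' (let ⟨_, a, b⟩ := o'; b ▸ c'.lc.inter a.isLocallyClosed))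
  have a := cap_part ho' c' e' o' k' 1
  rw [mul_one, map_one, cap_one] at a
  obtain ⟨t, ht, rfl⟩ := hcls_surj x
  rw [← pull_ind, ← pull_ind, ← g'.vr_cap (cocycle_ind l'), (g.vr_push hf g' hp m _).2, a,
    push_push (.of_isClosedEmbedding j') hp, show ⇑hf.map ∘ Quo.incl act' e' =
      Quo.incl act e ∘ hN.map from funext fun z => Quot.inductionOn z fun _ => rfl,
    ← push_push hp' (.of_isClosedEmbedding j), ← key, ← cap_part g.dom.orb c e o k, cap_mul,
    cap_mul, g.vr_cap (cocycle_ind l), g.vr_cap ht, H.map_hcls _ ht]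
  rfl

/-- the class of a divisor that may be empty -/
theorem cap_div' [IsAct act O] [IsAct act' N] (hf : EqM act' act N O θ f)
    (us : ∀ b, IsUnit b → ∃ a, IsUnit a ∧ θ a = b) (hh : ∀ x ∈ N, HolOn N f x)
    (ho : Orb Aˣ (Holo.Sp act O)) (ho' : Orb A'ˣ (Holo.Sp act' N)) (h1 : N.Nonempty → 1 ≤ d)
    (c : Cyc act O O d) (c' : Cyc act' N N (d - 1)) (hp : IsPr hf.map)
    (fr : N ⊆ closure {z | z ∈ N ∧ Fre act (f z)}) (hB : Clo (O ∩ B) O) (iB : Ivt act (O ∩ B))
    (dB : 1 ≤ d → DimLt (finrank ℂ A + (d - 1)) (O ∩ B)) {t : Coch (Quo act O)}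
    (ht : supp (δ t) = ∅) (hd : IsDeg 2 t) (hs : supp t ⊆ range hf.map)
    (loc : ∀ x : Holo.Sp act O, x.val ∈ f '' N → x.val ∉ B → ∃ τ, Smp act' act N O f x.val τ ∧
      LocDiv (pull Holo.Sp.mk t) (fun y => τ y.val) x) :
    cap (hcls t) (fnd act O d) = push hf.map (fnd act' N (d - 1)) := by
  rcases N.eq_empty_or_nonempty with rfl | hN
  · haveI : IsEmpty (Quo act' ∅) := ⟨fun z => Quot.inductionOn z fun z => z.2⟩
    rw [range_eq_empty, subset_empty_iff] at hs
    rw [(hcls_eq_zero ht).2 ⟨0, by rw [map_zero, sub_zero, hs]⟩, ← pd_eq_cap, map_zero,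
      show fnd act' ∅ (d - 1) = 0 from BM.ext_ev fun a _ => by
        rw [Subsingleton.elim a 0, ev_eq, ev_eq, cls_zero, map_zero, map_zero], map_zero]
  · obtain ⟨d, rfl⟩ := Nat.exists_eq_add_of_le' (h1 hN)
    exact cap_div hf us hh ho ho' c c' hp fr hB iB (dB (h1 hN)) ht hd hs loc

end Vale.Agent.P269.Trr
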