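import Vale.Agent.P269.Base.MerPar

/-!
# The pairing of the tangent lines at two points of a rational curve: definitions
-/

namespace Vale.Agent.P269.Trr

open Set Function Topology Filter Vale.Agent.P269.Base Vale.Agent.P269.Cv

variable {ι : Type} [Fintype ι] {M : ι → ℕ}

/-- The point `c` of `C` separates `p` from `q`. -/
def Sp (o : ι) (C : Set (V M)) (c p q : V M) : Prop :=
  ∃ (X : Type) (_ : TopologicalSpace X) (_ : T2Space X) (_ : CompactSpace X) (R : RS X)
    (N : Finset (X × X)) (A : ι → LB R) (π : X → V M) (U : Set X) (x y : X),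
    Par o C N A π ∧ IsClopen U ∧ x ∈ U ∧ y ∉ U ∧ Base.Orb (π x) p ∧ Base.Orb (π y) q ∧
      ∀ n ∈ N, ¬Base.Orb (π n.1) c → (n.1 ∈ U ↔ n.2 ∈ U)

/-- `C` has at most one node. -/
def On (o : ι) (C : Set (V M)) : Prop := ∀ c c', IsNode o C c → IsNode o C c' → Base.Orb c c'

/-- `f` is a function with at most a simple pole at `p` that vanishes at `q`. -/
abbrev Pz (o : ι) (C : Set (V M)) (p q : V M) (f : V M → ℂ) : Prop :=
  Mer o C 0 ![p, q] ![-1, 1] f

/-- `γ` is a branch through `p` with the tangent vector `v`, up to the tangent space of the orbit. -/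
def Tb (o : ι) (C : Set (V M)) (p v : V M) (γ : ℂ → V M) : Prop :=
  IsBranch o C γ ∧ γ 0 = p ∧ ∃ s : ι → ℂ, v = s • p + deriv γ 0

/-- `z = df (w)` for the function `f` that vanishes at `q` and has the principal part `v` at `p`. -/
def Pr (o : ι) (C : Set (V M)) (p q v w : V M) (z : ℂ) : Prop :=
  ∃ f γ δ, Pz o C p q f ∧ Tb o C p v γ ∧ Tb o C q w δ ∧ Vz (-1) (fun t => f (γ t)) 1 ∧
    Vz 1 (fun t => f (δ t)) z

open Classical in
/-- The pairing of the tangent lines at `p` and `q`. -/
noncomputable def pr (o : ι) (C : Set (V M)) (p q v w : V M) : ℂ :=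
  if h : ∃ z, Pr o C p q v w z then h.choose else 0

/-- A connected curve of genus zero with two different smooth points. -/
structure Gz (o : ι) (m : ι → ℤ) (C : Set (V M)) (p q : V M) : Prop where
  crv : IsCurve o 0 m C
  conn : IsConnected C
  spt : Spt o C ![p, q]

end Vale.Agent.P269.Trr
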