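import Vale.Agent.P269.Glu.Fnd
import Vale.Agent.P269.Spl.MultB

/-!
# The class of a divisor given by its normalisation
-/

set_option linter.unusedSectionVars false
set_option linter.style.haveILetI false

namespace Vale.Agent.P269.Trr

open Set Function Topology Filter Module Vale.Agent.P291Z Vale.Agent.P269.Orb Holo Ch MultB

theorem cnt_one {X Y : Type} [TopologicalSpace X] [TopologicalSpace Y] {Φ : X → Y} {x : X}
    (h : LH Φ x) {P : X → Prop} (hP : ∀ᶠ y in 𝓝 x, P y) : Cnt Φ x 1 P := by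
  obtain ⟨g, h1, h2, h3, h4⟩ := h.exists_inv
  have t : Tendsto g (𝓝 (Φ x)) (𝓝 x) := h2.cont.tendsto.mono_right (by rw [h1])
  refine ⟨_, h3, fun V hV => Eventually.frequently ?_⟩
  filter_upwards [t hV, t.eventually hP, h4] with w a b c
  exact ⟨{g w}, Finset.card_singleton _, fun y hy e => Finset.mem_singleton.2 (e ▸ hy.symm),
    fun y hy => Finset.mem_singleton.1 hy ▸ ⟨a, c, b⟩⟩

variable {A A' W W' : Type} [NormedRing A] [NormedAlgebra ℂ A] [NormedAddCommGroup W]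
  [NormedSpace ℂ W] [NormedRing A'] [NormedAlgebra ℂ A'] [NormedAddCommGroup W'] [NormedSpace ℂ W']
  [FiniteDimensional ℂ A] [FiniteDimensional ℂ W] [FiniteDimensional ℂ A'] [FiniteDimensional ℂ W']
  {act : A → W → W} {act' : A' → W' → W'} {O M Z B : Set W} {N : Set W'} {d : ℕ}

/-- **a simple zero has multiplicity one** -/
theorem ptVal_simple [IsAct act O] [IsAct act Z] (ho : Orb Aˣ (Holo.Sp act O))
    (h : Cyc act O O (d + 1)) (e : Z ⊆ O) (hZ : Clo Z O) {t : Coch (Quo act O)}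
    (ht : LCo (range (Quo.incl act e)) t) (hd : IsDeg 2 t) {x : Holo.Sp act Z} (hx : Fre act x.val)
    {τ : W → ℂ} (hτ : AnalyticAt ℂ τ x.val) {γ : ℂ → W} (hγ : Arc O x.val γ)
    (h0 : deriv (fun ε => τ (γ ε)) 0 ≠ 0) (hz : ∀ᶠ y in 𝓝 x.val, y ∈ O → (y ∈ Z ↔ τ y = 0))
    (hs : LocDiv (pull Holo.Sp.mk t) (fun y => τ y.val) (Holo.Sp.incl act e x)) :
    haveI := nice_of_orb ho
    PtVal (lgys (Quo.incl act e) t (fnd act O (d + 1))) d x 1 := by
  classical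
  have := FiniteDimensional.complete ℂ W
  obtain ⟨ψ, p, p0⟩ : IsMfd (Holo.Sp.val : Holo.Sp act O → W) (finrank ℂ A + (d + 1))
    (Holo.Sp.incl act e x) := h.mfd ⟨x.val, e x.val_mem⟩
  have v0 : (ψ 0).val = x.val := congrArg Holo.Sp.val p0
  obtain ⟨w, w1, w2, w3, w4, w5⟩ := p.exists_inv
  have g1 : AnalyticAt ℂ (fun z => τ (ψ z).val) 0 := hτ.comp_of_eq p.an v0
  have g2 : Surjective (fderiv ℂ (fun z => τ (ψ z).val) 0) := by
    have k1 : AnalyticAt ℂ (fun ε => w (γ ε)) 0 := w1.comp_of_eq hγ.an (hγ.zero.trans v0.symm)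
    have k0 : w (γ 0) = 0 := by rw [hγ.zero, ← v0, w2]
    have k2 : (fun ε => τ (γ ε)) =ᶠ[𝓝 0] fun ε => τ (ψ (w (γ ε))).val := by
      have a : ∀ᶠ s in 𝓝 x.val, ∀ hs : s ∈ O, (ψ (w s)).val = s := by
        rw [p0, Holo.Sp.isEmbedding_val.isInducing.nhds_eq_comap, eventually_comap] at w4
        exact w4.mono fun s b hs => congrArg Holo.Sp.val (b (.of act s hs) rfl)
      filter_upwards [(hγ.zero ▸ hγ.an.continuousAt.tendsto).eventually a, hγ.mem] with ε b c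
      rw [b c]
    have k3 := (HasFDerivAt.comp_hasDerivAt_of_eq 0 g1.differentiableAt.hasFDerivAt
      k1.differentiableAt.hasDerivAt k0.symm).deriv
    rw [k2.deriv_eq] at h0
    intro c
    refine ⟨(c / deriv (fun ε => τ (ψ (w (γ ε))).val) 0) • deriv (fun ε => w (γ ε)) 0, ?_⟩
    rw [map_smul, ← k3, smul_eq_mul]
    exact div_mul_cancel₀ _ h0
  obtain ⟨σ, κ, s1, s2, s3, s4, s5, s6, s7, s8⟩ := submersion_form g1 g2 (n := finrank ℂ A + d)
    (by simp [add_assoc])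
  have l1 : LH κ 0 := .of_inv σ (s3.eventually_analyticAt.mono fun _ a => a.continuousAt)
    (s4 ▸ s1.eventually_analyticAt.mono fun _ a => a.continuousAt) s6 (s4 ▸ s7)
  have l2 : LH (fun y : Holo.Sp act O => ((κ (w y.val)).1, τ y.val)) (Holo.Sp.incl act e x) := by
    rw [← p0]
    refine (l1.comp' w5 w2).congr (w4.mono fun y a => Prod.ext rfl ?_)
    change (κ (w y.val)).2 = τ y.val
    rw [s8, a]
  have a1 : AnalyticAt ℂ (fun s => (κ (w s)).1) x.val :=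
    analyticAt_fst.comp (s3.comp_of_eq (v0 ▸ w1) (v0 ▸ w2))
  have tx : Tendsto Holo.Sp.val (𝓝 (Holo.Sp.incl act e x)) (𝓝 x.val) :=
    Holo.Sp.continuous_val.tendsto _
  have tz : Tendsto Holo.Sp.val (𝓝 x) (𝓝 x.val) := Holo.Sp.continuous_val.tendsto _
  refine Nat.cast_one (R := ℂ) ▸ MultB.mult (φ := fun y => (κ (w y.val)).1) ho h.lc (h.deg ho) e hZ
    ht hd hx (finrank_fin_fun ℂ) ?_ hs ⟨_, a1, .of_forall fun _ => rfl⟩ ?_ (cnt_one l2 ?_)
  · filter_upwards [l2.eventually_cont, tx.eventually hz] with y a b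
    exact ⟨a.fst, a.snd, b y.val_mem⟩
  · obtain ⟨U, u1, u2⟩ := li_of_lh l2
    refine ⟨_, inter_mem ((Holo.Sp.isEmbedding_incl e).continuous.tendsto x u1) (tz hz),
      fun y a y' a' q => (Holo.Sp.isEmbedding_incl e).injective (u2 a.1 a'.1 (Prod.ext q ?_))⟩
    exact ((a.2 (e y.val_mem)).1 y.val_mem).trans ((a'.2 (e y'.val_mem)).1 y'.val_mem).symm
  · filter_upwards [l2.eventually, tx.eventually (a1.prod hτ).eventually_analyticAt,
      eventually_fre ho (x := Holo.Sp.incl act e x) hx] with y a b c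
    refine ⟨?_, ⟨_, b, .of_forall fun _ => rfl⟩, li_of_lh a⟩
    obtain ⟨ξ, h6, rfl⟩ := exists_isSlice ho (x := y) (h.mfd ⟨y.val, y.val_mem⟩)
    have := h.val ho h6
    rw [stab_eq_one (Holo.Sp.free_iff.1 c), Nat.cast_one] at this
    exact ⟨ξ, h6, rfl, this⟩

/-- a map that is an isomorphism over a point has degree one there -/
theorem ptVal_push [IsAct act Z] [IsAct act' N] {θ : A' → A} {f : W' → W}
    (hf : EqM act' act N Z θ f) (hh : ∀ x ∈ N, HolOn N f x) (ho : Orb Aˣ (Holo.Sp act Z))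
    (ho' : Orb A'ˣ (Holo.Sp act' N)) (c : Tpc act Z M d) (c' : Cyc act' N N d) (hp : IsPr hf.map)
    {x : Holo.Sp act Z} (hx : x.val ∈ M) {σ : W → W'} (h1 : AnalyticAt ℂ σ x.val)
    (h2 : Fre act' (σ x.val)) (h3 : ∀ᶠ y in 𝓝[M] x.val, σ y ∈ N ∧ f (σ y) = y)
    (h4 : ∀ z ∈ N, ∀ b, IsUnit b → act b (f z) = x.val → ∃ a, IsUnit a ∧ act' a z = σ x.val) :
    PtVal (push hf.map (fnd act' N d)) d x 1 := by
  classical
  haveI := nice_of_orb ho
  haveI := nice_of_orb ho'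
  obtain ⟨φ, a1, a2, a3, a4⟩ := c.exists_slice ho hx
  obtain rfl := Holo.Sp.ext a2
  have m1 : σ (φ 0).val ∈ N := (h3.self_of_nhdsWithin hx).1
  let y : Holo.Sp act' N := .of act' _ m1
  refine PtVal.of_slice ho a1 fun a l k1 k2 k3 => ?_
  rw [ev_push_finite hp _ a3 {y.mk} (fun z hz => ?_) (fun _ => 1) (fun z hz => ?_) k1 k2 k3]
  · rw [Finset.sum_singleton, mul_comm]
  · obtain ⟨z, rfl⟩ := Holo.Sp.surjective_mk z
    obtain ⟨g, hg⟩ := Holo.Sp.mk_eq_iff.1 (show (Holo.Sp.of act _ (hf.maps z.val_mem)).mk = _ from hz)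
    obtain ⟨_, ⟨g', rfl⟩, e⟩ := h4 _ z.val_mem g g.isUnit (congrArg Holo.Sp.val hg)
    exact Finset.mem_singleton.2 ((Holo.Sp.mk_eq_iff (x := z) (y := y)).2 ⟨g', Holo.Sp.ext e⟩)
  obtain rfl := Finset.mem_singleton.1 hz
  obtain ⟨φ', b1, b2, b3, -⟩ := c'.exists_slice ho' m1
  have t1 := (tendsto_nhdsWithin_iff.2 ⟨a1.2.1.continuousAt.tendsto, .of_forall a4⟩).eventually h3
  let u : (Fin d → ℂ) → Holo.Sp act' N := fun z =>
    if h : σ (φ z).val ∈ N then .of act' _ h else y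
  have t2 : ∀ᶠ z in 𝓝 0, σ (φ z).val = (u z).val := t1.mono fun z hz =>
    (congrArg Holo.Sp.val (dif_pos hz.1 : u z = _)).symm
  have t3 : ∀ᶠ z in 𝓝 0, f (u z).val = (φ z).val := (t1.and t2).mono fun z hz => hz.2 ▸ hz.1.2
  have u0 : u 0 = φ' 0 := Holo.Sp.ext (t2.self_of_nhds.symm.trans b2.symm)
  have r := rep_of_lift hf a1 b1 u0 (hh _ (φ' 0).val_mem)
    ((AnalyticAt.comp_of_eq h1 a1.2.1 rfl).congr t2) t3
  have v := r.val b3 (c'.val ho' b1)
  rw [stab_eq_one (Holo.Sp.free_iff.1 (b2.symm ▸ h2)), Nat.cast_one] at v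
  exact ⟨_, id, 1, 1, congrArg Holo.Sp.mk (Holo.Sp.ext t2.self_of_nhds.symm), (r.pch b3).cont, v,
    one_ne_zero, posGerm_id.germ, posGerm_id.co,
    t3.mono fun z hz => congrArg Holo.Sp.mk (Holo.Sp.ext hz), (mul_one _).symm⟩

/-- Near `x` the image of `f` is the smooth hypersurface `τ = 0`, `f` is an isomorphism over it. -/
structure Smp (act' : A' → W' → W') (act : A → W → W) (N : Set W') (O : Set W) (f : W' → W)
    (x : W) (τ : W → ℂ) : Prop where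
  an : AnalyticAt ℂ τ x
  arc : ∃ γ, Arc O x γ ∧ deriv (fun ε => τ (γ ε)) 0 ≠ 0
  zer : ∀ᶠ y in 𝓝 x, y ∈ f '' N → τ y = 0
  sec : ∃ σ : W → W', AnalyticAt ℂ σ x ∧ (Fre act x → Fre act' (σ x)) ∧
    (∀ᶠ y in 𝓝 x, y ∈ O → τ y = 0 → σ y ∈ N ∧ f (σ y) = y) ∧
    ∀ z ∈ N, f z = x → ∃ a, IsUnit a ∧ act' a z = σ x

/-- **The class of a divisor is the push-forward of the class of its normalisation.** -/
theorem cap_div [IsAct act O] [IsAct act' N] {θ : A' → A} {f : W' → W}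
    (hf : EqM act' act N O θ f) (us : ∀ b, IsUnit b → ∃ a, IsUnit a ∧ θ a = b)
    (hh : ∀ x ∈ N, HolOn N f x) (ho : Orb Aˣ (Holo.Sp act O)) (ho' : Orb A'ˣ (Holo.Sp act' N))
    (c : Cyc act O O (d + 1)) (c' : Cyc act' N N d) (hp : IsPr hf.map)
    (fr : N ⊆ closure {z | z ∈ N ∧ Fre act (f z)}) (hB : Clo (O ∩ B) O) (iB : Ivt act (O ∩ B))
    (dB : DimLt (finrank ℂ A + d) (O ∩ B)) {t : Coch (Quo act O)} (ht : supp (δ t) = ∅)
    (hd : IsDeg 2 t) (hs : supp t ⊆ range hf.map)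
    (loc : ∀ x : Holo.Sp act O, x.val ∈ f '' N → x.val ∉ B → ∃ τ, Smp act' act N O f x.val τ ∧
      LocDiv (pull Holo.Sp.mk t) (fun y => τ y.val) x) :
    cap (hcls t) (fnd act O (d + 1)) = push hf.map (fnd act' N d) := by
  have := FiniteDimensional.complete ℂ W
  haveI := nice_of_orb ho
  haveI := nice_of_orb ho'
  have e : f '' N ⊆ O := hf.maps.image_subset
  have iZ : Ivt act (f '' N) := by
    rintro b hb _ ⟨z, hz, rfl⟩
    obtain ⟨a, ha, rfl⟩ := us b hb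
    exact ⟨_, IsAct.mem a ha z hz, hf.eqv a ha z hz⟩
  have r : ∀ x : Holo.Sp act O, x.mk ∈ range hf.map ↔ x.val ∈ f '' N := fun x => by
    refine ⟨fun ⟨z, hz⟩ => ?_, fun ⟨z, hz, k⟩ => ⟨(Holo.Sp.of act' z hz).mk,
      congrArg Holo.Sp.mk (Holo.Sp.ext k)⟩⟩
    obtain ⟨z, rfl⟩ := Holo.Sp.surjective_mk z
    obtain ⟨g, rfl⟩ := Holo.Sp.mk_eq_iff.1 (show (Holo.Sp.of act _ (hf.maps z.val_mem)).mk = _ from hz)
    exact iZ _ g.isUnit _ ⟨_, z.val_mem, rfl⟩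
  have cZ : Clo (f '' N) O := by
    obtain ⟨C, h1, h2⟩ := Holo.Sp.isEmbedding_val.isInducing.isClosed_iff.1
      (hp.isProperMap.isClosedMap.isClosed_range.preimage (Holo.Sp.continuous_mk (act := act) (S := O)))
    exact ⟨C, h1, Set.ext fun x => ⟨fun a => ⟨e a,
      (Set.ext_iff.1 h2 (.of act x (e a))).2 ((r _).2 a)⟩,
      fun a => (r (.of act x a.1)).1 ((Set.ext_iff.1 h2 _).1 a.2)⟩⟩
  haveI : IsAct act (f '' N) := IsAct.mono ‹_› e iZ
  have lZ : IsLocallyClosed (f '' N) := let ⟨_, a, b⟩ := cZ; b ▸ c.lc.inter a.isLocallyClosed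
  have hz := orb_mono ho e lZ
  haveI := nice_of_orb hz
  obtain ⟨C, c1, c2⟩ := hB
  have eM : f '' N \ B = f '' N ∩ Cᶜ := Set.ext fun x => and_congr_right fun a =>
    not_congr ⟨fun b => (c2.le ⟨e a, b⟩).2, fun b => (c2.ge ⟨e a, b⟩).2⟩
  have zs : ∀ {x τ}, Smp act' act N O f x τ → ∀ᶠ y in 𝓝 x, y ∈ O → (y ∈ f '' N ↔ τ y = 0) :=
    fun h => let ⟨_, _, _, a, _⟩ := h.sec
      (h.zer.and a).mono fun _ b k => ⟨b.1, fun q => ⟨_, b.2 k q⟩⟩
  have T : Tpc act (f '' N) (f '' N \ B) d := by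
    refine ⟨⟨fun a ha x hx => ⟨iZ a ha x hx.1, fun k => hx.2 ?_⟩, fun x => ?_, ?_⟩, lZ,
      sdiff_subset, ⟨_, c1.isOpen_compl, eM⟩, dB.mono fun x a => ⟨e a.1, by_contra fun b =>
        a.2 ⟨a.1, b⟩⟩⟩
    · obtain ⟨g, rfl⟩ := ha
      exact ((Ivt.mem_iff iB g (.of act x (e hx.1))).1 k :)
    · obtain ⟨τ, h, -⟩ := loc (.of act x.1 (e x.2.1)) x.2.1 x.2.2
      obtain ⟨γ, g1, g2⟩ := h.arc
      refine (MfdAt.sub (m := finrank ℂ A + (d + 1)) ⟨e x.2.1, c.mfd _⟩ h.an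
        (h.zer.self_of_nhds x.2.1) (fun b _ => ?_) ?_ (by simp [add_assoc])).isMfd x.2
      · rw [← div_mul_cancel₀ b g2]
        exact Submodule.smul_mem _ _ (Submodule.subset_span ⟨γ, g1, rfl⟩)
      · filter_upwards [zs h, c1.isOpen_compl.mem_nhds (eM.le x.2).2] with y a b
        rw [eM]
        exact ⟨fun k => ⟨e k.1, (a (e k.1)).1 k.1⟩, fun k => ⟨(a k.1).2 k.2, b⟩⟩
    · rintro _ ⟨⟨z, hz, rfl⟩, k⟩
      have a := ((hf.cont z hz).mono (s := {z | z ∈ N ∧ Fre act (f z)})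
        fun _ b => b.1).mem_closure_image (fr hz)
      refine closure_mono ?_ (c1.isOpen_compl.inter_closure ⟨(eM.le ⟨⟨z, hz, rfl⟩, k⟩).2, a⟩)
      rintro _ ⟨b, y, hy, rfl⟩
      exact ⟨eM.ge ⟨⟨y, hy.1, rfl⟩, b⟩, hy.2⟩
  have hi := Quo.isClosedEmbedding_incl (act := act) e cZ
  have hs' : supp t ⊆ range (Quo.incl act e) := hs.trans fun z a => by
    obtain ⟨z, rfl⟩ := Holo.Sp.surjective_mk z
    exact (Quo.mk_mem_range e).2 ((r z).1 a)
  let f' := hf.mono subset_rfl (mapsTo_image f N)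
  have q : ⇑hf.map = Quo.incl act e ∘ f'.map := funext fun z => Quot.inductionOn z fun _ => rfl
  have p' : IsPr f'.map := ⟨f'.map.continuous, fun K hK => by
    have := hp.2 _ (hK.image hi.continuous)
    rwa [q, preimage_comp, hi.injective.preimage_image] at this⟩
  have dg := (c.deg ho).gys (Quo.incl act e) hd
  rw [Nat.cast_succ, mul_add_one, add_sub_cancel_right] at dg
  rw [← gys_id_eq_cap ht, ← push_gys hi IsClosedEmbedding.id ht hs', q,
    ← push_push p' (.of_isClosedEmbedding hi)]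
  refine congrArg _ (T.eq_of_dense hz dg ((c'.deg ho').push _) (G := {x | Fre act x}) T.free
    fun x hx => ⟨1, ?_, ?_⟩)
  · obtain ⟨τ, h, k⟩ := loc (Holo.Sp.incl act e x) hx.1.1 hx.1.2
    obtain ⟨γ, g1, g2⟩ := h.arc
    rw [id_comp, ← lgys_eq_gys hi ht hs']
    exact ptVal_simple ho c e cZ (.of_supp ht hs') hd hx.2 h.an g1 g2 (zs h) k
  · obtain ⟨τ, h, -⟩ := loc (Holo.Sp.incl act e x) hx.1.1 hx.1.2
    obtain ⟨σ, s1, s2, s3, s4⟩ := h.sec
    refine ptVal_push f' hh hz ho' T c' p' hx.1 s1 (s2 hx.2) (eventually_nhdsWithin_iff.2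
      ((h.zer.and s3).mono fun y a b => a.2 (e b.1) (a.1 b.1))) fun z hz b hb k => ?_
    obtain ⟨a, ha, rfl⟩ := us b hb
    obtain ⟨a', ha', k'⟩ := s4 _ (IsAct.mem a ha z hz) ((hf.eqv a ha z hz).trans k)
    exact ⟨a' * a, ha'.mul ha, (IsAct.mul a' a ha' ha z hz).trans k'⟩

end Vale.Agent.P269.Trr
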