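import Vale.Agent.P287Q.Trr.FamA
import Vale.Agent.P287Q.Trr.Pr

/-!
# The pairing of the tangent lines in a family: it smooths the separating node
-/

namespace Vale.Agent.P269.Trr

open Set Function Topology Filter Vale.Agent.P269.Base

variable {ι : Type} [Fintype ι] {M : ι → ℕ} {o : ι} {m : ι → ℤ}
  {T P : Type*} [TopologicalSpace T] [NormedAddCommGroup P] [NormedSpace ℂ P]
  [FiniteDimensional ℂ P] {D : T → Set (V M)} {π : T → P} {t₀ : T} {a b : P → V M}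

theorem exists_loc (h : LocFam o D π t₀) (ha : AnalyticAt ℂ a (π t₀)) (hb : AnalyticAt ℂ b (π t₀))
    (hz : ∀ᶠ t in 𝓝 t₀, Gz o m (D t) (a (π t)) (b (π t))) :
    ∃ (v w : P → V M) (Φ : P → ℂ), AnalyticAt ℂ v (π t₀) ∧ AnalyticAt ℂ w (π t₀) ∧
      AnalyticAt ℂ Φ (π t₀) ∧
      (∀ᶠ t in 𝓝 t₀, (∃ γ, IsBranch o (D t) γ ∧ γ 0 = a (π t) ∧ deriv γ 0 = v (π t)) ∧
        (∃ δ, IsBranch o (D t) δ ∧ δ 0 = b (π t) ∧ deriv δ 0 = w (π t)) ∧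
        pr o (D t) (a (π t)) (b (π t)) (v (π t)) (w (π t)) = Φ (π t) ∧
        (Φ (π t) = 0 ↔ ∃ c, IsNode o (D t) c ∧ Sp o (D t) c (a (π t)) (b (π t)))) ∧
      ∀ c τ, On o (D t₀) → NdAt o D π t₀ c τ → Sp o (D t₀) c (a (π t₀)) (b (π t₀)) →
        ∀ u : ℂ → T, u 0 = t₀ → ContinuousAt u 0 → AnalyticAt ℂ (fun r => π (u r)) 0 →
          deriv (fun r => τ (π (u r))) 0 ≠ 0 → deriv (fun r => Φ (π (u r))) 0 ≠ 0 := by
  obtain ⟨v, w, Φ, h1, h2, h3, h4, h5⟩ := exists_loc' h ha hb hz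
  refine ⟨v, w, Φ, h1, h2, h3, ?_, h5⟩
  filter_upwards [h4, hz] with t ⟨a, b, c⟩ k using ⟨a, b, k.pr_eq c, k.zero_iff c⟩

end Vale.Agent.P269.Trr
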