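import Vale.Agent.P287Q.Trr.Defs
import Vale.Agent.P269.Base.CbcA
import Vale.Agent.P269.Pt.Uniq
import Vale.Agent.P269.Cv.Rat

/-!
# Functions with one simple pole on a connected nodal curve
-/

set_option linter.unusedSectionVars false

namespace Vale.Agent.P269.Trr

open Set Function Topology Filter Vale.Agent.P269.Base Vale.Agent.P269.Cv

section sec

variable {X : Type} [TopologicalSpace X] [T2Space X] [CompactSpace X] {R : RS X}
  {N : Finset (X × X)} {L : LB R} {s : X → ℂ} {a b x x' : X} {U : Set X}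

/-- `L` has the degrees of `O(a - b)` -/
def Dg (L : LB R) (a b : X) : Prop :=
  ∀ U : Set X, IsClopen U → degOn L U = U.indicator 1 a - U.indicator 1 b

/-- the nodal curve is connected -/
def Cn (N : Finset (X × X)) : Prop :=
  ∀ U : Set X, IsClopen U → (∀ n ∈ N, n.1 ∈ U ↔ n.2 ∈ U) → U = ∅ ∨ U = univ

namespace Dg

variable (h : Dg L a b) (hs : s ∈ L.Γ)
include h hs

theorem card (hU : IsClopen U) {T : Finset X} (hT : ∀ x ∈ T, (x ∈ Gen s ∧ x ∈ U) ∧ s x = 0) :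
    (T.card : ℤ) ≤ (Gen s ∩ U).indicator 1 a - (Gen s ∩ U).indicator 1 b :=
  h _ ((isClopen_gen hs).inter hU) ▸ card_le_degOn ((isClopen_gen hs).inter hU)
    (fun x _ => hs x) inter_subset_left hT

theorem not_gen_of_sep (hU : IsClopen U) (ha : a ∈ U) (hb : b ∉ U) : b ∉ Gen s := fun k => by
  simpa [ha, hb, k] using h.card hs hU.compl (T := ∅) (by simp)

theorem not_gen (h0 : x ∈ Gen s) (h1 : s x = 0) : a ∈ Gen s ∧ b ∉ Gen s := by
  have := h.card hs isClopen_univ (T := {x}) (by simp [h0, h1])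
  by_cases k : a ∈ Gen s <;> by_cases k' : b ∈ Gen s <;> simp_all

theorem uniq (h0 : x ∈ Gen s) (h1 : s x = 0) (h2 : x' ∈ Gen s) (h3 : s x' = 0) : x = x' := by
  classical
  by_contra e
  have := h.card hs isClopen_univ (T := {x, x'}) (by simp [h0, h1, h2, h3])
  simp [Finset.card_pair e, h.not_gen hs h0 h1] at this

theorem ord (h0 : x ∈ Gen s) (h1 : s x = 0) : L.ord s x = 1 := by
  have e := degOn_eq_sum (isClopen_gen hs) (fun x _ => hs x) subset_rfl (Z := {x})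
    (fun y k1 k2 k3 => k2 (Finset.mem_singleton.2 (h.uniq hs k1 k3 h0 h1))) (by simpa using h0)
  rw [h _ (isClopen_gen hs), indicator_of_mem (h.not_gen hs h0 h1).1,
    indicator_of_notMem (h.not_gen hs h0 h1).2, Finset.sum_singleton, sub_zero, Pi.one_apply] at e
  rw [← ENat.natCast_toNat ((hs x).ord_ne_top.2 h0)]
  exact_mod_cast e.symm

omit hs

theorem exists_node (hc : Cn N) (hs : s ∈ H0 N L) (ha : a ∈ Gen s) (hb : b ∉ Gen s) :
    ∃ x x', Jn N x x' ∧ x ∈ Gen s ∧ x' ∉ Gen s ∧ s x = 0 := by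
  by_contra k
  rcases hc _ (isClopen_gen hs.1) fun n hn => ⟨fun k1 => by_contra fun k2 => k ⟨_, _, .inl hn, k1,
    k2, (hs.2 n hn).trans (eq_zero_of_gen hs.1 k2)⟩, fun k1 => by_contra fun k2 => k ⟨_, _, .inr hn,
      k1, k2, (hs.2 n hn).symm.trans (eq_zero_of_gen hs.1 k2)⟩⟩ with e | e
  exacts [e.subset ha, hb (e.ge trivial)]

theorem zero (hc : Cn N) (hs : s ∈ H0 N L) (ha : Sm N a) (h0 : s a = 0) : s = 0 := by
  by_cases k : a ∈ Gen s
  · obtain ⟨x, x', k1, k2, -, k3⟩ := h.exists_node hc hs k (h.not_gen hs.1 k h0).2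
    exact (sm_iff.1 ha x' (h.uniq hs.1 k2 k3 k h0 ▸ k1)).elim
  have k1 : ∀ x, x ∈ Gen s ↔ s x ≠ 0 := fun x =>
    ⟨fun e e' => k (h.not_gen hs.1 e e').1, (hs.1 x).mem_gen⟩
  rcases hc _ (isClopen_gen hs.1) fun n hn => by rw [k1, k1, hs.2 n hn] with e | e
  exacts [funext fun x => eq_zero_of_gen hs.1 (e ▸ id), (k (e.ge trivial)).elim]

end Dg

theorem Cn.const (hc : Cn N) (hs : s ∈ H0 N (1 : LB R)) (x x' : X) : s x = s x' := by
  have h1 : s - s x' • 1 ∈ H0 N (1 : LB R) :=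
    sub_mem hs (Submodule.smul_mem _ _ ⟨LB.one_mem, fun _ _ => rfl⟩)
  have h2 : ∀ y, y ∈ Gen (s - s x' • 1) ↔ (s - s x' • 1 : X → ℂ) y ≠ 0 := fun y => by
    refine ⟨fun e e' => ?_, (h1.1 y).mem_gen⟩
    have := card_le_degOn (isClopen_gen h1.1) (fun x _ => h1.1 x) subset_rfl (T := {y})
      fun _ k => Finset.mem_singleton.1 k ▸ ⟨e, e'⟩
    simp at this
  rcases hc _ (isClopen_gen h1.1) fun n hn => by rw [h2, h2, h1.2 n hn] with e | e
  · simpa [sub_eq_zero] using eq_zero_of_gen h1.1 (x := x) (e ▸ id)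
  · simpa using (h2 x').1 (e.ge trivial)

end sec

variable {ι : Type} [Fintype ι] {M : ι → ℕ} {o : ι} {m : ι → ℤ} {C : Set (V M)}
  {c p q v w : V M} {f f' : V M → ℂ} {γ δ : ℂ → V M} {z z' : ℂ}

theorem Sp.symm (h : Sp o C c p q) : Sp o C c q p :=
  let ⟨X, _, _, _, R, N, A, π, U, x, y, h1, h2, h3, h4, h5, h6, h7⟩ := h
  ⟨X, _, ‹_›, ‹_›, R, N, A, π, Uᶜ, y, x, h1, h2.compl, h4, not_not.2 h3, h6, h5,
    fun n a b => not_congr (h7 n a b)⟩

theorem Sp.orb {c' p' q' : V M} (h : Sp o C c p q) (e1 : Base.Orb c c') (e2 : Base.Orb p p')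
    (e3 : Base.Orb q q') : Sp o C c' p' q' :=
  let ⟨X, _, _, _, R, N, A, π, U, x, y, h1, h2, h3, h4, h5, h6, h7⟩ := h
  ⟨X, _, ‹_›, ‹_›, R, N, A, π, U, x, y, h1, h2, h3, h4, h5.trans e2, h6.trans e3,
    fun n a b => h7 n a fun k => b (k.trans e1)⟩

theorem spt_two : Spt o C ![p, q] ↔
    (p ∈ C ∧ ¬IsNode o C p) ∧ (q ∈ C ∧ ¬IsNode o C q) ∧ ¬Base.Orb p q :=
  ⟨fun h => ⟨⟨h.mem 0, h.sm 0⟩, ⟨h.mem 1, h.sm 1⟩, fun k => zero_ne_one (h.inj 0 1 k)⟩,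
    fun ⟨a, b, k⟩ => ⟨Fin.forall_fin_two.2 ⟨a.1, b.1⟩, Fin.forall_fin_two.2 ⟨a.2, b.2⟩,
      Fin.forall_fin_two.2 ⟨Fin.forall_fin_two.2 ⟨fun _ => rfl, fun e => (k e).elim⟩,
        Fin.forall_fin_two.2 ⟨fun e => (k e.symm).elim, fun _ => rfl⟩⟩⟩⟩

theorem off_two : Off ![p, q] c ↔ ¬Base.Orb p c ∧ ¬Base.Orb q c := Fin.forall_fin_two

theorem Gz.symm (h : Gz o m C p q) : Gz o m C q p :=
  let ⟨a, b, k⟩ := spt_two.1 h.spt
  ⟨h.crv, h.conn, spt_two.2 ⟨b, a, fun e => k e.symm⟩⟩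

section par

variable {X : Type} [TopologicalSpace X] [T2Space X] [CompactSpace X] {R : RS X}
  {N : Finset (X × X)} {A : ι → LB R} {π : X → V M} {x y : X}

/-- The section that belongs to the function `f`. -/
structure Md (o : ι) (C : Set (V M)) (p q : V M) (f : V M → ℂ) (N : Finset (X × X))
    (A : ι → LB R) (π : X → V M) (x y : X) (L : LB R) (s : X → ℂ) : Prop where
  dg : Dg L x y
  cn : Cn N
  smx : Sm N x
  mem : s ∈ H0 N L
  off : ∀ u, Off ![p, q] (π u) ↔ u ≠ x ∧ u ≠ y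
  val : ∀ u, u ≠ x → u ≠ y → s u = f (π u)
  loc : ∀ u, u ≠ x → u ≠ y → ∀ᶠ t in 𝓝 0, f (br A π u t) = L.loc s u t
  vx : ∀ γ z, IsBranch o C γ → Base.Orb p (γ 0) → Vz (-1) (fun t => f (γ t)) z → (z = 0 ↔ s x = 0)
  vy : ∀ γ z, IsBranch o C γ → Base.Orb q (γ 0) → Vz 1 (fun t => f (γ t)) z → (z = 0 ↔ s y = 0)

theorem Gz.md (h : Gz o m C p q) (hP : Par o C N A π) (hx : Base.Orb (π x) p)
    (hy : Base.Orb (π y) q) (hf : Pz o C p q f) : ∃ L s, Md o C p q f N A π x y L s := by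
  classical
  have k : ∀ j, Sm N (![x, y] j) ∧ Base.Orb (π (![x, y] j)) (![p, q] j) := by
    have : ∀ j, Base.Orb (π (![x, y] j)) (![p, q] j) := Fin.forall_fin_two.2 ⟨hx, hy⟩
    exact fun j => let ⟨t, a, b⟩ := this j
      ⟨by_contra fun e => h.spt.sm j (b ▸ (hP.isNode_iff a).2 e), this j⟩
  have i : Injective ![x, y] := fun j j' e => h.spt.inj j j' ((k j).2.symm.trans (e ▸ (k j').2))
  obtain ⟨s, s1, s2, s3⟩ := hP.exists_sec i k hf
  have v : ∀ j γ z, IsBranch o C γ → Base.Orb (![p, q] j) (γ 0) →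
      Vz (![-1, 1] j) (fun t => f (γ t)) z → (z = 0 ↔ s (![x, y] j) = 0) := fun j γ z a b d => by
    obtain ⟨t, e1, e2⟩ := (k j).2.trans b
    obtain ⟨r, e3, e4⟩ := hP.nod.vz hf.hom (hP.isBranch (![x, y] j)) a
      (fun e => h.spt.sm j (hP.nod.isNode_orb e b.symm)) e1 (by rw [br_zero]; exact e2)
    rw [d.unique (e4 _ _ (s3 j)), chz_zero, one_mul, mul_eq_zero,
      or_iff_right (zpow_ne_zero _ e3)]
  refine ⟨_, s, fun U hU => ?_, (hP.isConnected_iff.1 h.conn).2, (k 0).1, s1,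
    fun u => (hP.off_iff k).trans Fin.forall_fin_two,
    fun u a b => s2 u (Fin.forall_fin_two.2 ⟨a, b⟩), fun u a b => ?_, v 0, v 1⟩
  · simp [bz, degOn_mul, degOn_inv, degOn_pt hU, sub_eq_add_neg, add_comm, indicator_apply]
  · have e : ∀ j, u ≠ ![x, y] j := Fin.forall_fin_two.2 ⟨a, b⟩
    rw [MerP.loc_off e]
    exact (R.ev_iff.1 (eventually_all.2 fun j => eventually_ne_nhds (e j))).mono fun t d =>
      hP.loc_hom hf.hom (s2 _ d)

end par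

theorem Gz.exists_par (h : Gz o m C p q) : ∃ (X : Type) (_ : TopologicalSpace X) (_ : T2Space X)
    (_ : CompactSpace X) (R : RS X) (N : Finset (X × X)) (A : ι → LB R) (π : X → V M) (x y : X),
    Par o C N A π ∧ Base.Orb (π x) p ∧ Base.Orb (π y) q := by
  obtain ⟨X, _, _, _, R, N, A, π, hP⟩ := h.crv.isNodal.exists_par
  obtain ⟨y, -, k⟩ := hP.exists_pt h.spt
  exact ⟨X, _, ‹_›, ‹_›, R, N, A, π, y 0, y 1, hP, (k 0).2, (k 1).2⟩

theorem Gz.eq_zero (h : Gz o m C p q) (hf : Pz o C p q f) (hγ : IsBranch o C γ)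
    (h0 : Base.Orb p (γ 0)) (hv : Vz (-1) (fun t => f (γ t)) 0) :
    ∀ c ∈ C, Off ![p, q] c → f c = 0 := fun c hc ho => by
  obtain ⟨X, _, _, _, R, N, A, π, x, y, hP, hx, hy⟩ := h.exists_par
  obtain ⟨L, s, d⟩ := h.md hP hx hy hf
  obtain ⟨u, t, a, rfl⟩ := (hP.img c).1 hc
  have e := (d.off u).1 (ho.orb (Base.Orb.symm ⟨t, a, rfl⟩))
  rw [hf.hom t a _ (hP.mem u), ← d.val u e.1 e.2,
    d.dg.zero d.cn d.mem d.smx ((d.vx _ _ hγ h0 hv).1 rfl), Pi.zero_apply, mul_zero]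

theorem Gz.exists_bas (h : Gz o m C p q) (hγ : IsBranch o C γ) (h0 : Base.Orb p (γ 0)) :
    ∃ f, Bas o C 0 ![p, q] ![-1, 1] (fun _ : Unit => f) ∧ Vz (-1) (fun t => f (γ t)) 1 := by
  obtain ⟨r, F, h1, h2⟩ := h.crv.exists_bas' h.spt 0 ![-1, 1]
  have r0 : 0 < r := show 1 ≤ r by simpa [dgz] using h2
  obtain ⟨a, ha⟩ := (h1.mer ⟨0, r0⟩).ord 0 γ hγ h0
  have a0 : a ≠ 0 := fun e => by
    have := congrFun (h1.li (Pi.single ⟨0, r0⟩ 1) fun c hc ho => by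
      simp [Pi.single_apply, h.eq_zero (h1.mer ⟨0, r0⟩) hγ h0 (e ▸ ha) c hc ho]) ⟨0, r0⟩
    simp at this
  have k1 : Pz o C p q fun c => a⁻¹ * F ⟨0, r0⟩ c := (h1.mer _).smul _
  have k2 : Vz (-1) (fun t => a⁻¹ * F ⟨0, r0⟩ (γ t)) 1 := inv_mul_cancel₀ a0 ▸ ha.const_mul a⁻¹
  refine ⟨_, ⟨fun _ => k1, fun x hx => funext fun i => by_contra fun e => ?_, fun s hs => ?_⟩, k2⟩
  · obtain ⟨t, e1, e2, e3⟩ := ((k2.eventually_ne one_ne_zero).and
      (hγ.eventually_off' (z := ![p, q]) h.crv.nod)).exists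
    have := hx _ e2 e3
    rw [Fintype.sum_unique] at this
    exact e1 ((mul_eq_zero.1 this).resolve_left e)
  · obtain ⟨b, hb⟩ := hs.ord 0 γ hγ h0
    refine ⟨fun _ => b, fun c hc ho => ?_⟩
    have := h.eq_zero (hs.add (k1.smul (-b))) hγ h0
      (by simpa using hb.add (k2.const_mul (-b))) c hc ho
    rw [Fintype.sum_unique]
    linear_combination this

theorem Gz.mul_const (h : Gz o m C p q) (hf : Pz o C p q f) (hf' : Pz o C q p f')
    (hδ : IsBranch o C δ) (h0 : Base.Orb q (δ 0)) (h1 : Vz 1 (fun t => f (δ t)) z)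
    (h2 : Vz (-1) (fun t => f' (δ t)) z') : ∀ c ∈ C, Off ![p, q] c → f c * f' c = z * z' := by
  obtain ⟨X, _, _, _, R, N, A, π, hP⟩ := h.crv.isNodal.exists_par
  obtain ⟨y, i, k⟩ := hP.exists_pt h.spt
  have a : Mer o C 0 ![p, q] ![1, -1] f' := ⟨hf'.hom,
    fun γ a b => hf'.reg γ a (off_two.2 (off_two.1 b).symm), Fin.forall_fin_two.2 ⟨hf'.ord 1, hf'.ord 0⟩⟩
  have b : Mer o C 0 ![p, q] 0 fun c => f c * f' c :=
    (hf.mul a).cast (add_zero _) (funext (Fin.forall_fin_two.2 ⟨rfl, rfl⟩))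
  obtain ⟨s, s1, s2, s3⟩ := hP.exists_sec i k b
  rw [show bz A 0 / ∏ k, R.pt (y k) ^ (0 : Fin 2 → ℤ) k = 1 by simp [bz]] at s1
  obtain ⟨t, e1, e2⟩ := (k 1).2.trans h0
  obtain ⟨r, -, e4⟩ := hP.nod.vz (f := fun c => f c * f' c) b.hom (hP.isBranch (y 1)) hδ
    (fun e => h.spt.sm 1 (hP.nod.isNode_orb e h0.symm)) e1 (by rw [br_zero]; exact e2)
  have e5 : z * z' = s (y 1) := by simpa using (h1.mul h2).unique (e4 _ _ (s3 1))
  intro c hc ho
  obtain ⟨u, t, a, rfl⟩ := (hP.img c).1 hc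
  rw [b.hom t a _ (hP.mem u), ← s2 u ((hP.off_iff k).1 (ho.orb (Base.Orb.symm ⟨t, a, rfl⟩))), e5,
    chz_zero, one_mul]
  exact Cn.const (hP.isConnected_iff.1 h.conn).2 s1 _ _

theorem Gz.zero_iff (h : Gz o m C p q) (hz : Pr o C p q v w z) :
    z = 0 ↔ ∃ c, IsNode o C c ∧ Sp o C c p q := by
  obtain ⟨f, γ, δ, hf, ⟨g1, g2, -⟩, ⟨d1, d2, -⟩, v1, v2⟩ := hz
  constructor
  · intro e
    obtain ⟨X, _, _, _, R, N, A, π, x, y, hP, hx, hy⟩ := h.exists_par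
    obtain ⟨L, s, d⟩ := h.md hP hx hy hf
    have k1 : x ∈ Gen s := (d.mem.1 x).mem_gen fun k =>
      one_ne_zero ((d.vx _ _ g1 (g2 ▸ .refl _) v1).2 k)
    have k2 : y ∉ Gen s := fun k => (d.dg.not_gen d.mem.1 k ((d.vy _ _ d1 (d2 ▸ .refl _) v2).1 e)).2 k
    obtain ⟨u, u', u1, u2, -, u3⟩ := d.dg.exists_node d.cn d.mem k1 k2
    refine ⟨π u, one_smul (ι → ℂ) (π u) ▸ (hP.isNode_iff fun _ => one_ne_zero).2
      fun k => sm_iff.1 k u' u1, X, _, ‹_›, ‹_›, R, N, A, π, _, x, y, hP, isClopen_gen d.mem.1, k1,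
      k2, hx, hy, fun n hn k => ⟨fun a => by_contra fun b => k ?_, fun a => by_contra fun b => k ?_⟩⟩
    · rw [d.dg.uniq d.mem.1 a ((d.mem.2 n hn).trans (eq_zero_of_gen d.mem.1 b)) u2 u3]
      exact .refl _
    · rw [node_eq hP.sec hn,
        d.dg.uniq d.mem.1 a ((d.mem.2 n hn).symm.trans (eq_zero_of_gen d.mem.1 b)) u2 u3]
      exact .refl _
  · rintro ⟨c, -, X, _, _, _, R, N, A, π, U, x, y, hP, hU, k1, k2, hx, hy, -⟩
    obtain ⟨L, s, d⟩ := h.md hP hx hy hf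
    exact (d.vy _ _ d1 (d2 ▸ .refl _) v2).2
      (eq_zero_of_gen d.mem.1 (d.dg.not_gen_of_sep d.mem.1 hU k1 k2))

theorem Gz.node (h : Gz o m C p q) (h1 : On o C) (hs : Sp o C c p q) (hf : Pz o C p q f)
    (hγ : IsBranch o C γ) (h0 : Base.Orb p (γ 0)) (hz : z ≠ 0) (hv : Vz (-1) (fun t => f (γ t)) z)
    {γ₁ γ₂ : ℂ → V M} (hc : IsCross o C c γ₁ γ₂) :
    f c = 0 ∧ deriv (fun t => f (γ₁ t)) 0 + deriv (fun t => f (γ₂ t)) 0 ≠ 0 := by
  obtain ⟨X, _, _, _, R, N, A, π, U, x, y, hP, hU, k1, k2, hx, hy, -⟩ := hs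
  obtain ⟨L, s, d⟩ := h.md hP hx hy hf
  have k3 : x ∈ Gen s := (d.mem.1 x).mem_gen fun k => hz ((d.vx _ _ hγ h0 hv).2 k)
  obtain ⟨u, u', u1, u2, u3, u4⟩ := d.dg.exists_node d.cn d.mem k3
    (d.dg.not_gen_of_sep d.mem.1 hU k1 k2)
  have n1 : IsNode o C (π u) := one_smul (ι → ℂ) (π u) ▸ (hP.isNode_iff fun _ => one_ne_zero).2
    fun k => sm_iff.1 k u' u1
  obtain ⟨τ, t1, t2⟩ := h1 _ _ n1 ⟨_, _, hc⟩
  have o1 : ∀ w, π w = π u → w ≠ x ∧ w ≠ y := fun w e => (d.off w).1 fun j k =>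
    h.spt.sm j (hP.nod.isNode_orb n1 (e ▸ k.symm))
  have key : ∀ γ, IsBranch o C γ → γ 0 = c → ∃ (w : X) (α β : ℂ), (w = u ∨ w = u') ∧ β ≠ 0 ∧
      deriv γ 0 o = β • deriv (br A π w) 0 o + α • c o ∧
      (deriv (fun t => f (γ t)) 0 = 0 ↔ w = u') := fun γ a b => by
    obtain ⟨w, σ, φ, a1, a2, a3, a4, a5, a6⟩ := hP.factor_branch a
    obtain ⟨a7, a8⟩ := hP.deriv_factor a1 a3 a4 a6 o
    have a9 := hP.fibre t1 (t2.symm.trans (b.symm.trans a7))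
    have b1 : w = u ∨ w = u' := a9.imp Eq.symm fun k => Jn.unique hP.nd k u1
    have b2 := o1 w (hP.π_eq a9).symm
    have b3 : Tendsto φ (𝓝 0) (𝓝 0) := by simpa [a4] using a3.continuousAt.tendsto
    have b4 : (fun t => f (γ t)) =ᶠ[𝓝 0] fun t => L.loc s w (φ t) := by
      filter_upwards [a6, b3.eventually (d.loc w b2.1 b2.2), eventually_all.2 fun i =>
        (analyticAt_pi_iff.1 a1 i).continuousAt.eventually_ne (a2 i)] with t e1 e2 e3
      rw [e1, hf.hom _ e3 _ (hP.br_mem _ _), chz_zero, one_mul, e2]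
    have b5 : deriv (fun t => f (γ t)) 0 = deriv (L.loc s w) 0 * deriv φ 0 := b4.deriv_eq.trans
      ((d.mem.1 w).differentiableAt.hasDerivAt.comp_of_eq 0
        a3.differentiableAt.hasDerivAt a4.symm).deriv
    refine ⟨w, deriv σ 0 o / σ 0 o, _, b1, mul_ne_zero (a2 o) a5, ?_, ?_⟩
    · rw [a8, ← b, a7, Dict.smul_ap, smul_smul, div_mul_cancel₀ _ (a2 o)]
    rw [b5, mul_eq_zero, or_iff_left a5]
    rcases b1 with rfl | rfl
    · refine iff_of_false (fun k => ?_) fun k => u3 (k ▸ u2)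
      have := AnalyticAt.analyticOrderAt_deriv_add_one (d.mem.1 w)
      simp only [LB.loc_zero, u4, sub_zero] at this
      rw [show analyticOrderAt (fun t => L.loc s w t) 0 = 1 from d.dg.ord d.mem.1 u2 u4] at this
      exact (AnalyticAt.analyticOrderAt_eq_zero (AnalyticAt.deriv (d.mem.1 w))).1
        (WithTop.add_right_cancel ENat.one_ne_top (this.trans (zero_add 1).symm)) k
    · refine iff_of_true ?_ rfl
      rw [(LB.loc_congr ((d.mem.1 w).not_mem_gen.1 u3 : s =ᶠ[_] 0)).deriv_eq]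
      exact (congrArg (deriv · 0) (funext fun _ => zero_div _)).trans (deriv_const 0 0)
  refine ⟨by rw [t2, hf.hom _ t1 _ (hP.mem u), ← d.val u (o1 u rfl).1 (o1 u rfl).2, u4, mul_zero],
    ?_⟩
  obtain ⟨w, α, β, a1, a2, a3, a4⟩ := key _ hc.1 hc.2.2.1
  obtain ⟨w', α', β', b1, b2, b3, b4⟩ := key _ hc.2.1 hc.2.2.2.1
  have ne : w ≠ w' := fun e => by
    refine b2 (Fintype.linearIndependent_iff.1 hc.2.2.2.2 ![β * α' - β' * α, β', -β] ?_ 1)
    simp only [Fin.sum_univ_three, Matrix.cons_val, a3, b3, e]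
    module
  by_cases k : w = u'
  · rw [a4.2 k, zero_add]
    exact fun e => ne (k.trans (b4.1 e).symm)
  · rw [b4.2 (b1.resolve_left fun e => ne ((a1.resolve_right k).trans e.symm)), add_zero]
    exact fun e => k (a4.1 e)

end Vale.Agent.P269.Trr
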