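import Vale.Agent.P269.G3.Line
import Vale.Agent.P269.Grr.Line
import Vale.Agent.P269.Spl.MultB

/-!
# The divisor of a pairing of two line bundles
-/

set_option linter.unusedSectionVars false

namespace Vale.Agent.P269.Trr

open Set Function Topology Filter P291Z Ch

variable {A W P P₁ P₂ : Type} [NormedRing A] [NormedAlgebra ℂ A] [NormedAddCommGroup W]
  [NormedSpace ℂ W] [NormedAddCommGroup P] [NormedSpace ℂ P] [NormedAddCommGroup P₁]
  [NormedSpace ℂ P₁] [NormedAddCommGroup P₂] [NormedSpace ℂ P₂] {act : A → W → W} {S : Set W}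
  [Holo.IsAct act S] (ho : Orb.Orb Aˣ (Holo.Sp act S))

/-- `b` is a continuous generator of the line bundle `E` near `x₀`. -/
structure Frm (E : SD A W P) (S : Set W) (x₀ : W) (b : W → P) : Prop where
  ne : b x₀ ∉ E.N x₀
  ev : ∀ᶠ x in 𝓝[S] x₀, ContinuousWithinAt b S x ∧ b x ∈ E.B x

include ho in
/-- the coordinate of a vector with respect to a generator is continuous -/
theorem pair_coord {E : SD A W P} {r : ℕ} (h : E.Ok act S (r + 1) r) {T : Type}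
    [TopologicalSpace T] {t₀ : T} {x : T → Holo.Sp act S} {v b : T → P} (hx : ContinuousAt x t₀)
    (hv : ContinuousAt v t₀) (hb : ContinuousAt b t₀) (h0 : b t₀ ∉ E.N (x t₀).val)
    (hm : ∀ᶠ t in 𝓝 t₀, v t ∈ E.B (x t).val ∧ b t ∈ E.B (x t).val) :
    ∃ z : T → ℂ, ContinuousAt z t₀ ∧
      ∀ᶠ t in 𝓝 t₀, b t ∉ E.N (x t).val ∧ v t - z t • b t ∈ E.N (x t).val := by
  classical
  obtain ⟨E₀, E₁, ι, M, -, h1, h2, -⟩ := h.exists_isMod ho
  rw [Nat.add_sub_cancel_left] at h1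
  obtain ⟨q, hq⟩ := Grr.Ln.exists_dual E₁.W
  choose! w w1 w2 using fun t (e : v t ∈ E.B (x t).val) => (h2.map (x t)).ge e
  choose! u u1 u2 using fun t (e : b t ∈ E.B (x t).val) => (h2.map (x t)).ge e
  have c1 : ContinuousAt w t₀ := h2.emb.isInducing.continuousAt_iff.2
    (hv.congr (hm.mono fun t e => (w2 t e.1).symm))
  have c2 : ContinuousAt u t₀ := h2.emb.isInducing.continuousAt_iff.2
    (hb.congr (hm.mono fun t e => (u2 t e.2).symm))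
  have c3 : ContinuousAt (fun t => h2.hom.clm (x t)) t₀ :=
    h2.hom.continuous_clm.continuousAt.comp hx
  have e0 := hm.self_of_nhds.2
  have c4 : h2.hom.clm (x t₀) (u t₀) ≠ 0 := fun e => h0 (u2 t₀ e0 ▸
    (h2.ker _ _ (u1 _ e0)).1 ((h2.hom.clm_eq (u1 _ e0)).symm.trans e))
  refine ⟨fun t => q (h2.hom.clm (x t) (u t)) (h2.hom.clm (x t) (w t)),
    ((hq _ c4).2.comp (f := fun t => h2.hom.clm (x t) (u t)) (c3.clm_apply c2)).clm_apply
      (c3.clm_apply c1), ?_⟩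
  filter_upwards [hm, (c3.clm_apply c2).eventually_ne c4] with t e1 e2
  have e3 := h2.hom.clm_eq (u1 t e1.2)
  have e4 := h2.hom.clm_eq (w1 t e1.1)
  have e5 := Grr.Ln.eq_smul ((E₁.rank (x t)).trans h1) (e3 ▸ h2.hom.mem (x t) _ (u1 t e1.2))
    (hq _ e2).1 (e4 ▸ h2.hom.mem (x t) _ (w1 t e1.1))
  have e6 := (h2.map_eq_iff (w1 t e1.1) (Submodule.smul_mem _
    (q (h2.hom.clm (x t) (u t)) (h2.hom.clm (x t) (w t))) (u1 t e1.2))).1
      (e4.symm.trans (e5.trans ((congrArg _ e3).trans (map_smul _ _ _).symm)))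
  rw [map_smul, w2 t e1.1, u2 t e1.2] at e6
  exact ⟨fun e => e2 (e3.trans ((h2.ker _ _ (u1 t e1.2)).2 ((u2 t e1.2).symm ▸ e))), e6⟩

/-- The points of `Y'` are the points of `Y` with a generator `v` of the line bundle `E`. -/
structure FrR (E : SD A W P) {Y Y' : Sp} (m : Mor Y (spA ho)) (k : Mor Y' Y)
    (χ : Y'.G →ₜ* ℂˣ) (v : Y'.T → P) : Prop where
  hom : IsHomeomorph k.map
  eu : H.map (m.comp k).map (hcls (E.eu act S)) = -(c1 χ).1
  cont : Continuous v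
  mem : ∀ t, v t ∈ E.B (Holo.Sp.val (act := act) (m.f (k.f t)))
  ne : ∀ t, v t ∉ E.N (Holo.Sp.val (act := act) (m.f (k.f t)))
  eqv : ∀ g t, v (g • t) = (χ g : ℂ) • E.ρ (Units.val (m.ρ (k.ρ g))) (v t)
  lift : ∀ {T : Type} [TopologicalSpace T] (x : T → Y.T) (u : T → P),
    Continuous x → Continuous u → (∀ z, u z ∈ E.B (Holo.Sp.val (act := act) (m.f (x z)))) →
    (∀ z, u z ∉ E.N (Holo.Sp.val (act := act) (m.f (x z)))) → ∃ φ : T → Y'.T, Continuous φ ∧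
      ∀ z, k.f (φ z) = x z ∧ v (φ z) - u z ∈ E.N (Holo.Sp.val (act := act) (m.f (x z)))

theorem exists_frR {E : SD A W P} {r : ℕ} (h : E.Ok act S (r + 1) r) {Y : Sp}
    (m : Mor Y (spA ho)) : ∃ Y' k χ v, FrR ho E (Y' := Y') m k χ v := by
  obtain ⟨E₀, E₁, ι, M, -, h1, h2, -, h3⟩ := h.exists_isMod ho
  rw [Nat.add_sub_cancel_left] at h1
  obtain ⟨σ, s1, s2⟩ := h2.hom.exists_sect h2.surj
  have s3 : ∀ x : (E₁.pb m).PT, σ (m.f x.t) x.w ∈ E₀.F (m.f x.t) := fun x => s1.mem _ _ x.mem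
  refine ⟨(E₁.pb m).PS, (E₁.pb m).pp, (E₁.pb m).o1,
    fun x : (E₁.pb m).PT => ι (σ (m.f x.t) x.w), (E₁.pb m).isHomeomorph_pp h1, ?_,
    h2.emb.continuous.comp (s1.continuous (m.cf.comp VB.PT.continuous_t) VB.PT.continuous_w
      VB.PT.mem), fun x => h2.mem (s3 x), fun x e => VB.PT.ne x ((s2 _ _ (VB.PT.mem x)).symm.trans
      ((h2.ker _ _ (s3 x)).2 e)), fun g (x : (E₁.pb m).PT) => ?_, fun x u hx hu hB hN => ?_⟩
  · have : Grr.Ln.Tr (m.comp (E₁.pb m).pp) E₁ (E₁.pb m).o1⁻¹ VB.PT.w :=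
      ⟨VB.PT.continuous_w, VB.PT.mem, VB.PT.ne, fun g t => ((smul_smul _ _ _).trans
        ((congrArg (· • _) g.2.inv_mul).trans (one_smul ℂ _))).symm⟩
    exact (congrArg _ (SD.hcls_presA ho h2)).trans
      (congrArg Subtype.val ((this.eu h1).trans (c1_inv _)))
  · change ι (σ (m.f (g.1 • x.t)) ((g.2 : ℂ) • (m.ρ g.1 • (show E₁.W from x.w)))) = _
    rw [map_smul, map_smul, m.eqv, s1.eqv (m.ρ g.1) _ _ x.mem]
    exact congrArg _ (h3 _ _)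
  · choose w w1 w2 using fun z => (h2.map (m.f (x z))).ge (hB z)
    have c2 : Continuous w := h2.emb.continuous_iff.2 (hu.congr fun z => (w2 z).symm)
    have w3 : ∀ z, M (m.f (x z)) (w z) ≠ 0 := fun z e => hN z (w2 z ▸ (h2.ker _ _ (w1 z)).1 e)
    let ψ : _ → (E₁.pb m).PT := fun z =>
      VB.PT.mk (x z) (M (m.f (x z)) (w z)) (h2.hom.mem _ _ (w1 z)) (w3 z)
    refine ⟨ψ, VB.PT.continuous_mk hx (h2.hom.continuous (m.cf.comp hx) c2 w1) _ _,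
      fun z => ⟨rfl, ?_⟩⟩
    have := (h2.map_eq_iff (s3 (ψ z)) (w1 z)).1 (s2 _ _ (ψ z).mem)
    rwa [w2] at this

/-- `β` is an invariant pairing of the line bundles `E₁` and `E₂`. -/
structure Prg (act : A → W → W) (S : Set W) (E₁ : SD A W P₁) (E₂ : SD A W P₂)
    (β : W → P₁ → P₂ → ℂ) : Prop where
  hom₁ : ∀ x ∈ S, ∀ v ∈ E₁.B x, ∀ n ∈ E₁.N x, ∀ w ∈ E₂.B x, ∀ z : ℂ,
    β x (z • v + n) w = z * β x v w
  hom₂ : ∀ x ∈ S, ∀ v ∈ E₁.B x, ∀ w ∈ E₂.B x, ∀ n ∈ E₂.N x, ∀ z : ℂ,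
    β x v (z • w + n) = z * β x v w
  eqv : ∀ a, IsUnit a → ∀ x ∈ S, ∀ v ∈ E₁.B x, ∀ w ∈ E₂.B x,
    β (act a x) (E₁.ρ a v) (E₂.ρ a w) = β x v w
  loc : ∀ x₀ ∈ S, ∃ b₁ b₂, Frm E₁ S x₀ b₁ ∧ Frm E₂ S x₀ b₂ ∧
    ContinuousWithinAt (fun x => β x (b₁ x) (b₂ x)) S x₀

variable {E₁ : SD A W P₁} {E₂ : SD A W P₂} {β : W → P₁ → P₂ → ℂ} {r₁ r₂ : ℕ}

omit [Holo.IsAct act S] in
theorem Prg.hom (h : Prg act S E₁ E₂ β) {x : W} (hx : x ∈ S) {v v' : P₁} {w w' : P₂} {z z' : ℂ}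
    (hv : v ∈ E₁.B x) (hw : w ∈ E₂.B x) (hw' : w' ∈ E₂.B x) (e : v' - z • v ∈ E₁.N x)
    (e' : w' - z' • w ∈ E₂.N x) : β x v' w' = z * (z' * β x v w) := by
  rw [← h.hom₂ x hx v hv w hw _ e', ← h.hom₁ x hx v hv _ e _ (by rwa [add_sub_cancel]),
    add_sub_cancel, add_sub_cancel]

include ho in
/-- the pairing is continuous -/
theorem Prg.cont (h : Prg act S E₁ E₂ β) (h₁ : E₁.Ok act S (r₁ + 1) r₁)
    (h₂ : E₂.Ok act S (r₂ + 1) r₂) {T : Type} [TopologicalSpace T] {t₀ : T}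
    {x : T → Holo.Sp act S} {v : T → P₁} {w : T → P₂} (hx : ContinuousAt x t₀)
    (hv : ContinuousAt v t₀) (hw : ContinuousAt w t₀)
    (hm : ∀ᶠ t in 𝓝 t₀, v t ∈ E₁.B (x t).val ∧ w t ∈ E₂.B (x t).val) :
    ContinuousAt (fun t => β (x t).val (v t) (w t)) t₀ := by
  obtain ⟨b₁, b₂, f₁, f₂, c⟩ := h.loc _ (x t₀).val_mem
  have t1 : Tendsto (fun t => (x t).val) (𝓝 t₀) (𝓝[S] (x t₀).val) :=
    tendsto_nhdsWithin_iff.2 ⟨Holo.Sp.isEmbedding_val.continuous.continuousAt.comp hx,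
      .of_forall fun t => (x t).val_mem⟩
  have g₁ := t1.eventually f₁.ev
  have g₂ := t1.eventually f₂.ev
  obtain ⟨z₁, a₁, d₁⟩ := pair_coord ho h₁ (b := fun t => b₁ (x t).val) hx hv
    (g₁.self_of_nhds.1.tendsto.comp t1) f₁.ne ((hm.and g₁).mono fun t e => ⟨e.1.1, e.2.2⟩)
  obtain ⟨z₂, a₂, d₂⟩ := pair_coord ho h₂ (b := fun t => b₂ (x t).val) hx hw
    (g₂.self_of_nhds.1.tendsto.comp t1) f₂.ne ((hm.and g₂).mono fun t e => ⟨e.1.2, e.2.2⟩)
  refine (a₁.mul (a₂.mul (ContinuousAt.congr (f := fun t => β (x t).val (b₁ (x t).val)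
    (b₂ (x t).val)) (c.tendsto.comp t1) (.refl _ _)))).congr ?_
  filter_upwards [hm, g₁, g₂, d₁, d₂] with t e1 e2 e3 e4 e5
  exact (h.hom (x t).val_mem e2.2 e3.2 e1.2 e4.2 e5.2).symm

include ho in
/-- The divisor of a pairing of two line bundles. -/
theorem Prg.exists_div (h : Prg act S E₁ E₂ β) (h₁ : E₁.Ok act S (r₁ + 1) r₁)
    (h₂ : E₂.Ok act S (r₂ + 1) r₂) : ∃ t : Coch (Quo act S), supp (δ t) = ∅ ∧ IsDeg 2 t ∧
      hcls t = -hcls (E₁.eu act S) + -hcls (E₂.eu act S) ∧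
      (∀ x : Holo.Sp act S, x.mk ∈ supp t → ∀ v ∈ E₁.B x.val, ∀ w ∈ E₂.B x.val,
        β x.val v w = 0) ∧
      ∀ (x : Holo.Sp act S) b₁ b₂, Frm E₁ S x.val b₁ → Frm E₂ S x.val b₂ →
        LocDiv (pull Holo.Sp.mk t) (fun y => β y.val (b₁ y.val) (b₂ y.val)) x := by
  obtain ⟨Y₁, k₁, χ₁, v₁, f₁⟩ := exists_frR ho h₁ (Mor.id _)
  obtain ⟨Y₂, k₂, χ₂, v₂, f₂⟩ := exists_frR ho h₂ k₁
  let m := k₁.comp k₂
  have hm : IsHomeomorph m.map := by
    rw [Mor.map_comp]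
    exact f₁.hom.comp f₂.hom
  let a : Y₂.T → ℂ := fun t => β (Holo.Sp.val (act := act) (m.f t)) (v₁ (k₂.f t)) (v₂ t)
  have hs : (char (k₂.chr χ₁ * χ₂)).IsSec a := by
    refine ⟨fun _ => trivial, continuous_iff_continuousAt.2 fun t => h.cont ho h₁ h₂
      (x := m.f) m.cf.continuousAt (f₁.cont.comp k₂.cf).continuousAt f₂.cont.continuousAt
      (.of_forall fun t => ⟨f₁.mem _, f₂.mem _⟩), fun g t => ?_⟩
    have u := Units.isUnit (m.ρ g)
    have x0 := Holo.Sp.val_mem (act := act) (m.f t)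
    have x1 := Holo.IsAct.mem (act := act) _ u _ x0
    have b₁ := h₁.famB.inv _ x0 _ u _ (f₁.mem (k₂.f t))
    have b₂ := h₂.famB.inv _ x0 _ u _ (f₂.mem t)
    change β (Holo.Sp.val (act := act) (m.f (g • t))) (v₁ (k₂.f (g • t))) (v₂ (g • t)) =
      ((χ₁ (k₂.ρ g) * χ₂ g : ℂˣ) : ℂ) * β _ _ _
    rw [m.eqv, k₂.eqv, f₁.eqv, f₂.eqv, Units.val_mul, mul_assoc,
      ← h.eqv _ u _ x0 _ (f₁.mem (k₂.f t)) _ (f₂.mem t)]
    exact h.hom x1 b₁ b₂ (Submodule.smul_mem _ _ b₂)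
      ((congrArg (· ∈ _) (sub_self _)).mpr (zero_mem _))
      ((congrArg (· ∈ _) (sub_self _)).mpr (zero_mem _))
  let e := hm.homeomorph
  let j : C(Quo act S, Y₂.X) := ⟨e.symm, e.symm.continuous⟩
  have j1 : ∀ t, j (Holo.Sp.mk (act := act) (m.f t)) = Y₂.π t := fun t =>
    e.symm_apply_eq.2 (m.map_π t).symm
  have j2 : ∀ c : H (Quo act S), H.map j (H.map m.map c) = c := fun c =>
    (H.map_map _ _ _).trans (H.map_id (fun x => e.apply_symm_apply x) _)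
  have lift : ∀ {T : Type} [TopologicalSpace T] (x : T → Holo.Sp act S) (v : T → P₁) (w : T → P₂),
      Continuous x → Continuous v → Continuous w → (∀ z, v z ∈ E₁.B (x z).val) →
      (∀ z, v z ∉ E₁.N (x z).val) → (∀ z, w z ∈ E₂.B (x z).val) → (∀ z, w z ∉ E₂.N (x z).val) →
      ∃ φ : T → Y₂.T, Continuous φ ∧
        ∀ z, m.f (φ z) = x z ∧ a (φ z) = β (x z).val (v z) (w z) := by
    intro T _ x v w cx cv cw a1 a2 a3 a4
    obtain ⟨φ₁, c₁, d₁⟩ := f₁.lift x v cx cv a1 a2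
    obtain ⟨φ₂, c₂, d₂⟩ := f₂.lift φ₁ w c₁ cw (fun z => (d₁ z).1.symm ▸ a3 z)
      fun z => (d₁ z).1.symm ▸ a4 z
    have e1 : ∀ z, m.f (φ₂ z) = x z := fun z => (congrArg k₁.f (d₂ z).1).trans (d₁ z).1
    refine ⟨φ₂, c₂, fun z => ⟨e1 z, ?_⟩⟩
    have e2 := f₂.mem (φ₂ z)
    have e3 := (d₂ z).2
    change β (Holo.Sp.val (act := act) (m.f (φ₂ z))) (v₁ (k₂.f (φ₂ z))) _ = _
    rw [(d₂ z).1, (d₁ z).1] at e2
    rw [(d₁ z).1] at e3
    rw [e1, (d₂ z).1, h.hom (x z).val_mem (a1 z) (a3 z) e2 (z := 1) (z' := 1)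
      ((one_smul ℂ (v z)).symm ▸ (d₁ z).2) ((one_smul ℂ (w z)).symm ▸ e3), one_mul, one_mul]
  refine ⟨pull j hs.eul, cocycle_pull j.continuous hs.isCo.cocycle, hs.isCo.deg.pull _, ?_,
    fun x hx v hv w hw => ?_, fun x b₁ b₂ g₁ g₂ => ?_⟩
  · rw [← H.map_hcls j hs.isCo.cocycle, hs.hcls_eul, ← j2 (_ + _)]
    refine congrArg _ ?_
    have e1 : H.map m.map (hcls (E₁.eu act S)) = -(c1 (k₂.chr χ₁)).1 := by
      rw [Mor.map_comp, ← H.map_map, ← map_c1]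
      exact (congrArg _ f₁.eu).trans (map_neg _ _)
    refine (congrArg Subtype.val (c1_mul _ _)).trans (Eq.symm ((map_add _ _ _).trans ?_))
    exact congrArg₂ (· + ·) ((map_neg _ _).trans (neg_eq_iff_eq_neg.2 e1))
      ((map_neg _ _).trans (neg_eq_iff_eq_neg.2 f₂.eu))
  · obtain ⟨t, t1, t2⟩ := hs.isCo.supp (supp_pull j.continuous _ hx)
    obtain ⟨b₁, b₂, g₁, g₂, -⟩ := h.loc _ x.val_mem
    have g₃ := (g₁.ev.self_of_nhdsWithin x.val_mem).2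
    have g₄ := (g₂.ev.self_of_nhdsWithin x.val_mem).2
    obtain ⟨φ, -, d⟩ := lift (T := Unit) (fun _ => x) (fun _ => b₁ x.val) (fun _ => b₂ x.val)
      continuous_const continuous_const continuous_const (fun _ => g₃) (fun _ => g₁.ne)
      (fun _ => g₄) fun _ => g₂.ne
    obtain ⟨g, hg⟩ := (Y₂.fib _ _).1 (t2.trans ((congrArg (fun y => j (Holo.Sp.mk y))
      (d ()).1.symm).trans (j1 _)))
    have e0 : β x.val (b₁ x.val) (b₂ x.val) = 0 := by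
      rw [← (d ()).2, ← hg, hs.eqv, show a t = 0 from t1]
      exact mul_zero _
    obtain ⟨z₁, -, d₁⟩ := pair_coord ho h₁ (T := Unit) (t₀ := ()) (x := fun _ => x)
      (v := fun _ => v) (b := fun _ => b₁ x.val) continuousAt_const continuousAt_const
      continuousAt_const g₁.ne (.of_forall fun _ => ⟨hv, g₃⟩)
    obtain ⟨z₂, -, d₂⟩ := pair_coord ho h₂ (T := Unit) (t₀ := ()) (x := fun _ => x)
      (v := fun _ => w) (b := fun _ => b₂ x.val) continuousAt_const continuousAt_const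
      continuousAt_const g₂.ne (.of_forall fun _ => ⟨hw, g₄⟩)
    rw [h.hom x.val_mem g₃ g₄ hw d₁.self_of_nhds.2 d₂.self_of_nhds.2, e0, mul_zero, mul_zero]
  · have t1 : ∀ y : Holo.Sp act S, Tendsto Holo.Sp.val (𝓝 y) (𝓝[S] y.val) := fun y =>
      tendsto_nhdsWithin_iff.2 ⟨Holo.Sp.isEmbedding_val.continuous.continuousAt,
        .of_forall fun t => t.val_mem⟩
    have g₃ := (t1 x).eventually g₁.ev
    have g₄ := (t1 x).eventually g₂.ev
    have c₁ := g₃.self_of_nhds.1.tendsto.comp (t1 x)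
    have c₂ := g₄.self_of_nhds.1.tendsto.comp (t1 x)
    obtain ⟨_, -, d₁⟩ := pair_coord ho h₁ (x := id) (v := fun y => b₁ y.val)
      (b := fun y => b₁ y.val) continuousAt_id c₁ c₁ g₁.ne (g₃.mono fun _ e => ⟨e.2, e.2⟩)
    obtain ⟨_, -, d₂⟩ := pair_coord ho h₂ (x := id) (v := fun y => b₂ y.val)
      (b := fun y => b₂ y.val) continuousAt_id c₂ c₂ g₂.ne (g₄.mono fun _ e => ⟨e.2, e.2⟩)
    obtain ⟨U, u1, u2, u3⟩ := eventually_nhds_iff.1 ((g₃.and g₄).and (d₁.and d₂))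
    obtain ⟨φ, c, d⟩ := lift (T := U) Subtype.val (fun y => b₁ y.1.val) (fun y => b₂ y.1.val)
      continuous_subtype_val
      (continuous_iff_continuousAt.2 fun y => ((u1 _ y.2).1.1.1.tendsto.comp (t1 _)).comp
        continuous_subtype_val.continuousAt)
      (continuous_iff_continuousAt.2 fun y => ((u1 _ y.2).1.2.1.tendsto.comp (t1 _)).comp
        continuous_subtype_val.continuousAt)
      (fun y => (u1 _ y.2).1.1.2) (fun y => (u1 _ y.2).2.1.1) (fun y => (u1 _ y.2).1.2.2)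
      fun y => (u1 _ y.2).2.2.1
    obtain ⟨ψ, e1⟩ : ∃ ψ : Holo.Sp act S → Y₂.T, ∀ y : U, ψ y.1 = φ y :=
      ⟨extend Subtype.val φ fun _ => φ ⟨x, u3⟩, Subtype.val_injective.extend_apply _ _⟩
    have e2 := u2.eventually_mem u3
    have e3 := (LocDiv.pull (f := ψ) (locDiv_eul rfl hs (ψ x) (.id ℂ ℂ) fun _ _ e => e)
      (e2.mono fun y hy => u2.isOpenEmbedding_subtypeVal.continuousAt_iff.1
        (c.continuousAt (x := ⟨y, hy⟩) |>.congr (.of_forall fun z => (e1 z).symm)))).congr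
      (s' := fun y => β y.val (b₁ y.val) (b₂ y.val))
      (e2.mono fun y hy => (congrArg a (e1 ⟨y, hy⟩)).trans (d _).2)
    refine MultB.locDiv_congr e3 ?_
    rw [pull_pull, pull_pull]
    exact Orb.van_pull_congr (e2.mono fun y hy => (congrArg (fun y => j (Holo.Sp.mk y))
      (d ⟨y, hy⟩).1.symm).trans ((j1 _).trans (congrArg _ (e1 ⟨y, hy⟩).symm))) _

end Vale.Agent.P269.Trr
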